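import Vale.Agent.Lib.P087.W.Ssum

/-! P087 part W: coefficients and moments of semicircular words. -/

namespace P087

variable {I : Type} [DecidableEq I]

private theorem Cf_ssum_add {κ : Type} [DecidableEq κ] (j : κ) (F G : List κ → List κ → ℝ)
    (w : List κ) : ssum j (fun u v => F u v + G u v) w = ssum j F w + ssum j G w := by
  unfold ssum
  rw [← Finset.sum_add_distrib]
  refine Finset.sum_congr rfl fun l _ => ?_
  split_ifs
  · rfl
  · rw [add_zero]

private theorem Cf_ssum_if {κ : Type} [DecidableEq κ] (j : κ) (P : Prop) [Decidable P]
    (F : List κ → List κ → ℝ) (w : List κ) :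
    ssum j (fun u v => if P then F u v else 0) w = if P then ssum j F w else 0 := by
  by_cases h : P
  · simp only [if_pos h]
  · simp only [if_neg h]
    unfold ssum
    simp

private theorem Cf_ssum_congr {κ : Type} [DecidableEq κ] (j : κ) (F G : List κ → List κ → ℝ)
    (w : List κ) (h : ∀ u v, w = u ++ j :: v → F u v = G u v) : ssum j F w = ssum j G w := by
  unfold ssum
  refine Finset.sum_congr rfl fun l hl => ?_
  split_ifs with h1
  · refine h _ _ ?_
    obtain ⟨hl', h2⟩ := List.getElem?_eq_some_iff.1 h1
    rw [← h2]
    simp
  · rfl

private theorem Cf_ssum_ssum {κ : Type} [DecidableEq κ] (a i : κ) (R : List κ) :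
    ∀ H : List κ → List κ → List κ → ℝ,
      ssum a (fun Q₁ Q₂ => ssum i (fun A B => H Q₁ A B) Q₂) R =
        ssum i (fun A' B => ssum a (fun Q₁ A => H Q₁ A B) A') R := by
  induction R with
  | nil =>
    intro H
    rw [ssum_nil, ssum_nil]
  | cons c R ih =>
    intro H
    rw [ssum_cons, ssum_cons, ssum_nil, ite_self, zero_add]
    simp only [ssum_cons]
    rw [Cf_ssum_add, Cf_ssum_if, ih (fun Q₁ A B => H (c :: Q₁) A B)]

private theorem Cf_ssum_singleton {κ : Type} [DecidableEq κ] (j a : κ)
    (F : List κ → List κ → ℝ) : ssum j F [a] = if a = j then F [] [] else 0 := by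
  rw [ssum_cons, ssum_nil, add_zero]

private theorem Cf_ssum_reverse {κ : Type} [DecidableEq κ] (j : κ) (w : List κ) :
    ∀ F : List κ → List κ → ℝ,
      ssum j F w.reverse = ssum j (fun u v => F v.reverse u.reverse) w := by
  induction w with
  | nil =>
    intro F
    rw [List.reverse_nil, ssum_nil, ssum_nil]
  | cons a w ih =>
    intro F
    rw [List.reverse_cons, ssum_append, Cf_ssum_singleton, ih, ssum_cons, List.append_nil,
      add_comm]
    simp only [List.reverse_cons, List.reverse_nil]

private theorem Cf_nil (w : List I) : cf ([] : List I) w = if w = [] then 1 else 0 := by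
  rw [cf]

private theorem Cf_cons_nil (i : I) (Q : List I) : cf (i :: Q) [] = cf Q [i] := by
  rw [cf]

private theorem Cf_cons_cons (i : I) (Q : List I) (j : I) (w : List I) :
    cf (i :: Q) (j :: w) = (if i = j then cf Q w else 0) + cf Q (i :: j :: w) := by
  rw [cf]

/-- identity (1): induction on `Q` -/
theorem cf_split (Q u v : List I) (i : I) :
    cf Q (u ++ i :: v) = ssum i (fun Q₁ Q₂ => cf Q₁ u * cf Q₂ v) Q := by
  induction Q generalizing u with
  | nil =>
    rw [ssum_nil, Cf_nil, if_neg (by simp)]
  | cons a Q ih =>
    rw [ssum_cons]
    cases u with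
    | nil =>
      have h1 := ih [a]
      rw [List.nil_append, Cf_cons_cons, Cf_nil, if_pos rfl, one_mul]
      simp only [Cf_cons_nil]
      rw [← h1]
      rfl
    | cons b u =>
      have h1 := ih u
      have h2 := ih (a :: b :: u)
      rw [List.cons_append, Cf_cons_cons, Cf_nil, if_neg (List.cons_ne_nil b u), zero_mul,
        ite_self, zero_add]
      simp only [Cf_cons_cons, add_mul, ite_mul, zero_mul]
      rw [Cf_ssum_add, Cf_ssum_if, ← h1, ← h2]
      rfl

theorem mom_nil : mom ([] : List I) = 1 := by
  unfold mom
  rw [Cf_nil, if_pos rfl]

/-- integration by parts -/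
theorem mom_cons (i : I) (Q : List I) :
    mom (i :: Q) = ssum i (fun Q₁ Q₂ => mom Q₁ * mom Q₂) Q := by
  unfold mom
  rw [Cf_cons_nil]
  exact cf_split Q [] [] i

/-- (by the first letter recursion and strong induction on the length) -/
theorem mom_concat (i : I) (Q : List I) :
    mom (Q ++ [i]) = ssum i (fun Q₁ Q₂ => mom Q₁ * mom Q₂) Q := by
  induction hn : Q.length using Nat.strong_induction_on generalizing Q with
  | _ n ih =>
    subst hn
    cases Q with
    | nil =>
      rw [List.nil_append, mom_cons, ssum_nil]
    | cons a R =>
      rw [List.cons_append, mom_cons, ssum_append, Cf_ssum_singleton, List.append_nil, mom_nil,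
        mul_one, ssum_cons, mom_nil, one_mul, add_comm]
      congr 1
      · by_cases h : i = a
        · rw [if_pos h, if_pos h.symm]
        · rw [if_neg h, if_neg fun h' => h h'.symm]
      · have h1 : ssum a (fun u v => mom u * mom (v ++ [i])) R =
            ssum a (fun u v => ssum i (fun A B => mom u * (mom A * mom B)) v) R := by
          refine Cf_ssum_congr a _ _ R fun u v huv => ?_
          have hl : R.length = u.length + (v.length + 1) := by
            rw [huv, List.length_append, List.length_cons]
          have h1 : v.length < (a :: R).length := by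
            rw [List.length_cons]
            omega
          rw [ih v.length h1 v rfl]
          unfold ssum
          rw [Finset.mul_sum]
          refine Finset.sum_congr rfl fun l _ => ?_
          split_ifs
          · rfl
          · rw [mul_zero]
        rw [h1, Cf_ssum_ssum a i R fun Q₁ A B => mom Q₁ * (mom A * mom B)]
        refine Cf_ssum_congr i _ _ R fun u v _ => ?_
        rw [mom_cons]
        unfold ssum
        rw [Finset.sum_mul]
        refine Finset.sum_congr rfl fun l _ => ?_
        split_ifs
        · ring
        · rw [zero_mul]

theorem mom_comm (Q₁ Q₂ : List I) : mom (Q₁ ++ Q₂) = mom (Q₂ ++ Q₁) := by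
  induction Q₁ generalizing Q₂ with
  | nil => rw [List.nil_append, List.append_nil]
  | cons a Q₁ ih =>
    rw [List.cons_append, mom_cons, ← mom_concat, List.append_assoc, ih, List.append_assoc]
    simp

theorem mom_reverse (Q : List I) : mom Q.reverse = mom Q := by
  induction hn : Q.length using Nat.strong_induction_on generalizing Q with
  | _ n ih =>
    subst hn
    cases Q with
    | nil => rfl
    | cons a R =>
      rw [List.reverse_cons, mom_concat, Cf_ssum_reverse, mom_cons]
      refine Cf_ssum_congr a _ _ R fun u v huv => ?_
      have hl : R.length = u.length + (v.length + 1) := by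
        rw [huv, List.length_append, List.length_cons]
      have h1 : v.length < (a :: R).length := by
        rw [List.length_cons]
        omega
      have h2 : u.length < (a :: R).length := by
        rw [List.length_cons]
        omega
      rw [ih v.length h1 v rfl, ih u.length h2 u rfl, mul_comm]

theorem cf_nonneg (Q w : List I) : 0 ≤ cf Q w := by
  induction Q generalizing w with
  | nil =>
    rw [Cf_nil]
    split_ifs <;> norm_num
  | cons a Q ih =>
    cases w with
    | nil =>
      rw [Cf_cons_nil]
      exact ih _
    | cons b w =>
      rw [Cf_cons_cons]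
      refine add_nonneg ?_ (ih _)
      split_ifs
      · exact ih _
      · exact le_refl _

theorem cf_zero_of_lt (Q w : List I) (h : Q.length < w.length) : cf Q w = 0 := by
  induction Q generalizing w with
  | nil =>
    rw [Cf_nil, if_neg]
    rintro rfl
    simp at h
  | cons a Q ih =>
    cases w with
    | nil => simp at h
    | cons b w =>
      simp only [List.length_cons] at h
      rw [Cf_cons_cons, ih w (by omega), ite_self, zero_add]
      exact ih _ (by simp only [List.length_cons]; omega)

private theorem Cf_odd (Q w : List I) (h : Odd (Q.length + w.length)) : cf Q w = 0 := by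
  induction Q generalizing w with
  | nil =>
    rw [Cf_nil, if_neg]
    rintro rfl
    simp at h
  | cons a Q ih =>
    cases w with
    | nil =>
      rw [Cf_cons_nil]
      refine ih _ ?_
      simp only [List.length_cons, List.length_nil, Nat.odd_iff] at h ⊢
      omega
    | cons b w =>
      rw [Cf_cons_cons, ih w (by simp only [List.length_cons, Nat.odd_iff] at h ⊢; omega),
        ite_self, zero_add]
      refine ih _ ?_
      simp only [List.length_cons, Nat.odd_iff] at h ⊢
      omega

theorem mom_odd (Q : List I) (h : Odd Q.length) : mom Q = 0 := by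
  unfold mom
  exact Cf_odd Q [] (by simpa using h)

private theorem Cf_map {I' : Type} [DecidableEq I'] (f : I → I') (hf : Function.Injective f)
    (Q w : List I) : cf (Q.map f) (w.map f) = cf Q w := by
  induction Q generalizing w with
  | nil =>
    rw [List.map_nil, Cf_nil, Cf_nil]
    simp
  | cons a Q ih =>
    cases w with
    | nil =>
      rw [List.map_cons, List.map_nil, Cf_cons_nil, Cf_cons_nil]
      exact ih [a]
    | cons b w =>
      rw [List.map_cons, List.map_cons, Cf_cons_cons, Cf_cons_cons, ← ih w, ← ih (a :: b :: w)]
      simp only [hf.eq_iff, List.map_cons]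

theorem mom_map {I' : Type} [DecidableEq I'] (f : I → I') (hf : Function.Injective f) (Q : List I) :
    mom (Q.map f) = mom Q := by
  unfold mom
  exact Cf_map f hf Q []

end P087
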