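import Vale.Agent.Lib.P087.Comb

/-! P087 part W: splitting sums. -/

namespace P087

variable {κ A : Type} [DecidableEq κ] [AddCommMonoid A]

theorem ssum_nil (j : κ) (F : List κ → List κ → A) : ssum j F [] = 0 := by
  simp [ssum]

theorem ssum_cons (j a : κ) (F : List κ → List κ → A) (w : List κ) :
    ssum j F (a :: w) = (if a = j then F [] w else 0) + ssum j (fun u v => F (a :: u) v) w := by
  unfold ssum
  rw [List.length_cons, Finset.sum_range_succ', add_comm]
  simp

theorem ssum_append (j : κ) (F : List κ → List κ → A) (w₁ w₂ : List κ) :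
    ssum j F (w₁ ++ w₂) = ssum j (fun u v => F u (v ++ w₂)) w₁
      + ssum j (fun u v => F (w₁ ++ u) v) w₂ := by
  induction w₁ generalizing F with
  | nil => rw [List.nil_append, ssum_nil, zero_add]; rfl
  | cons a w ih =>
    rw [List.cons_append, ssum_cons, ih, ssum_cons, add_assoc]
    rfl

/-- the sum as a sum over `Fin w.length` -/
theorem ssum_fin (j : κ) (F : List κ → List κ → A) (w : List κ) :
    ssum j F w = ∑ l : Fin w.length, if w[l] = j then F (w.take l) (w.drop (l + 1)) else 0 := by
  unfold ssum
  rw [Finset.sum_range]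
  refine Finset.sum_congr rfl fun l _ => ?_
  have h : (w[(l : ℕ)]? = some j) ↔ w[l] = j := by
    rw [List.getElem?_eq_getElem l.isLt, Option.some.injEq]
    rfl
  simp only [h]

end P087
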