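import Vale.Agent.Lib.P087.W.Cf

/-! P087 part W: the extension of functionals to words in `X(t)`. -/

namespace P087

variable {r : ℕ}

/-- linear maps commute with `ext` -/
theorem ext_map {A B : Type} [AddCommGroup A] [Module ℝ A] [AddCommGroup B] [Module ℝ B]
    (φ : A →ₗ[ℝ] B) (q : ℝ) (f : List (Let r) → A) (w : List (K r)) :
    φ (ext q f w) = ext q (fun Q => φ (f Q)) w := by
  induction w generalizing f with
  | nil => rfl
  | cons i w ih =>
    simp only [ext]
    rw [map_list_sum, List.map_map]
    congr 1
    refine List.map_congr_left fun cm _ => ?_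
    simp only [Function.comp_apply, map_smul, ih]

theorem ext_add {A : Type} [AddCommGroup A] [Module ℝ A] (q : ℝ) (f g : List (Let r) → A)
    (w : List (K r)) : ext q (fun Q => f Q + g Q) w = ext q f w + ext q g w := by
  induction w generalizing f g with
  | nil => rfl
  | cons i w ih =>
    simp only [ext]
    rw [← List.sum_map_add]
    congr 1
    refine List.map_congr_left fun cm _ => ?_
    rw [ih, smul_add]

theorem ext_const_mul (q c : ℝ) (f : List (Let r) → ℝ) (w : List (K r)) :
    ext q (fun Q => c * f Q) w = c * ext q f w :=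
  (ext_map (LinearMap.mulLeft ℝ c) q f w).symm

private theorem ext_zero' (q : ℝ) (w : List (K r)) :
    ext q (fun _ : List (Let r) => (0 : ℝ)) w = 0 := by
  have h := ext_const_mul (r := r) q 0 (fun _ => (0 : ℝ)) w
  simpa using h

/-- a fixed prefix -/
private theorem ext_ssum_const (q : ℝ) (j : Let r) (f g : List (Let r) → ℝ) (L : List (Let r))
    (w : List (K r)) :
    ext q (fun Q => ssum j (fun u v => f u * g (v ++ Q)) L) w =
      ssum j (fun u v => f u * ext q (fun Q => g (v ++ Q)) w) L := by
  induction L generalizing f with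
  | nil =>
    simp only [ssum_nil]
    exact ext_zero' q w
  | cons a L ih =>
    simp only [ssum_cons]
    rw [ext_add, ih (fun u => f (a :: u))]
    congr 1
    by_cases h : a = j
    · simp only [if_pos h]
      exact ext_const_mul q (f []) (fun Q => g (L ++ Q)) w
    · simp only [if_neg h]
      exact ext_zero' q w

/-- the general step -/
private theorem ext_ssum_cons (q : ℝ) (j : Let r) (f g : List (Let r) → ℝ) (i : K r)
    (w : List (K r)) :
    ext q (fun Q => ssum j (fun Q₁ Q₂ => f Q₁ * g Q₂) Q) (i :: w) =
      ((mons q i).map fun cm => cm.1 *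
        ssum j (fun u v => f u * ext q (fun Q => g (v ++ Q)) w) cm.2).sum +
      ((mons q i).map fun cm => cm.1 *
        ext q (fun Q => ssum j (fun Q₁ Q₂ => f (cm.2 ++ Q₁) * g Q₂) Q) w).sum := by
  rw [← List.sum_map_add]
  simp only [ext, smul_eq_mul]
  congr 1
  refine List.map_congr_left fun cm _ => ?_
  have h : (fun Q => ssum j (fun Q₁ Q₂ => f Q₁ * g Q₂) (cm.2 ++ Q)) = fun Q =>
      ssum j (fun u v => f u * g (v ++ Q)) cm.2 +
        ssum j (fun u v => f (cm.2 ++ u) * g v) Q := by
    funext Q
    rw [ssum_append]
  rw [h, ext_add, ext_ssum_const, mul_add]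

private theorem hid_first (q : ℝ) (p : Fin r) (f G : List (Let r) → ℝ) (i : K r) :
    ((mons q i).map fun cm => cm.1 * ssum (hid p) (fun u v => f u * G v) cm.2).sum =
      ((Dp p i).map fun uv => f (uv.1.map hid) * G (uv.2.map hid)).sum := by
  rcases i with a | ⟨a, b, c⟩
  · by_cases h : p = a
    · subst h
      simp [mons, Dp, ssum_cons, ssum_nil]
    · have h' : ¬ a = p := fun e => h e.symm
      simp [mons, Dp, ssum_cons, ssum_nil, h, h']
  · have e1 : ∀ x y : Fin r, (hid x : Let r) = hid y ↔ y = x := by
      intro x y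
      constructor
      · intro h
        simpa using h.symm
      · rintro rfl
        rfl
    simp only [mons, Dp, ssum_cons, ssum_nil, List.map_cons, List.map_nil, List.sum_cons,
      List.sum_nil, List.map_append, List.sum_append, e1, reduceCtorEq, if_false, add_zero,
      mul_zero, one_mul, Sum.inl.injEq]
    split_ifs <;> simp <;> ring

private theorem inn_first (q : ℝ) (j : J r) (f G : List (Let r) → ℝ) (i : K r) :
    ((mons q i).map fun cm => cm.1 * ssum (inn j) (fun u v => f u * G v) cm.2).sum =
      if i = Sum.inr j then f [] * G [] else 0 := by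
  rcases i with a | ⟨a, b, c⟩
  · simp [mons, ssum_cons, ssum_nil]
  · simp [mons, ssum_cons, ssum_nil]

private theorem out_first (q : ℝ) (i' : K r) (f G : List (Let r) → ℝ) (i : K r) :
    ((mons q i).map fun cm => cm.1 * ssum (out i') (fun u v => f u * G v) cm.2).sum =
      if i = i' then q * (f [] * G []) else 0 := by
  rcases i with a | ⟨a, b, c⟩
  · simp [mons, ssum_cons, ssum_nil]
  · simp [mons, ssum_cons, ssum_nil]

private theorem list_ssum (k : K r) (L : List (ℝ × List (Let r)))
    (F : ℝ × List (Let r) → List (K r) → List (K r) → ℝ) (w : List (K r)) :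
    (L.map fun cm => cm.1 * ssum k (F cm) w).sum =
      ssum k (fun u v => (L.map fun cm => cm.1 * F cm u v).sum) w := by
  induction L with
  | nil => simp [ssum]
  | cons cm L ih =>
    simp only [List.map_cons, List.sum_cons]
    rw [ih]
    unfold ssum
    rw [Finset.mul_sum, ← Finset.sum_add_distrib]
    refine Finset.sum_congr rfl fun l _ => ?_
    split_ifs <;> ring

private theorem list_mul_sum (L : List (ℝ × List (Let r))) (F : ℝ × List (Let r) → ℝ) (c : ℝ) :
    (L.map fun cm => cm.1 * (F cm * c)).sum = (L.map fun cm => cm.1 * F cm).sum * c := by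
  induction L with
  | nil => simp
  | cons cm L ih =>
    simp only [List.map_cons, List.sum_cons, ih]
    ring

/-- splitting at a hidden letter -/
theorem ext_ssum_hid (q : ℝ) (p : Fin r) (f g : List (Let r) → ℝ) (w : List (K r)) :
    ext q (fun Q => ssum (hid p) (fun Q₁ Q₂ => f Q₁ * g Q₂) Q) w =
      ∑ l : Fin w.length, ((Dp p w[l]).map fun uv =>
        ext q (fun Q => f (Q ++ uv.1.map hid)) (w.take l) *
        ext q (fun Q => g (uv.2.map hid ++ Q)) (w.drop (l + 1))).sum := by
  induction w generalizing f with
  | nil => simp [ext, ssum_nil]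
  | cons i w ih =>
    rw [ext_ssum_cons, hid_first q p f (fun v => ext q (fun Q => g (v ++ Q)) w) i]
    simp only [ih]
    have hs : ∀ (T : Fin (i :: w).length → ℝ), ∑ l, T l
        = T ⟨0, by simp⟩ + ∑ l : Fin w.length, T ⟨l.1 + 1, by simp⟩ := by
      intro T
      exact Fin.sum_univ_succ (n := w.length) T
    rw [hs]
    congr 1
    have hc : ∀ l : Fin w.length, ((Dp p w[l]).map fun uv =>
        ext q (fun Q => f (Q ++ uv.1.map hid)) (i :: w.take l) *
        ext q (fun Q => g (uv.2.map hid ++ Q)) (w.drop (l + 1))).sum =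
        ((mons q i).map fun cm => cm.1 * ((Dp p w[l]).map fun uv =>
          ext q (fun Q => f (cm.2 ++ (Q ++ uv.1.map hid))) (w.take l) *
          ext q (fun Q => g (uv.2.map hid ++ Q)) (w.drop (l + 1))).sum).sum := by
      intro l
      generalize Dp p w[l] = D
      induction D with
      | nil => simp
      | cons uv D ihD =>
        simp only [List.map_cons, List.sum_cons, mul_add]
        rw [ihD, List.sum_map_add]
        congr 1
        simp only [ext, smul_eq_mul, List.append_assoc]
        exact (list_mul_sum (mons q i) (fun cm =>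
          ext q (fun Q => f (cm.2 ++ (Q ++ uv.1.map hid))) (w.take l)) _).symm
    trans ∑ l : Fin w.length, ((mons q i).map fun cm => cm.1 * ((Dp p w[l]).map fun uv =>
          ext q (fun Q => f (cm.2 ++ (Q ++ uv.1.map hid))) (w.take l) *
          ext q (fun Q => g (uv.2.map hid ++ Q)) (w.drop (l + 1))).sum).sum
    · generalize mons q i = M
      induction M with
      | nil => simp
      | cons cm M ihM =>
        simp only [List.map_cons, List.sum_cons, ihM]
        rw [Finset.mul_sum, ← Finset.sum_add_distrib]
    · refine Finset.sum_congr rfl fun l _ => ?_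
      rw [← hc l]
      rfl

/-- splitting at an inner noise letter -/
theorem ext_ssum_inn (q : ℝ) (j : J r) (f g : List (Let r) → ℝ) (w : List (K r)) :
    ext q (fun Q => ssum (inn j) (fun Q₁ Q₂ => f Q₁ * g Q₂) Q) w =
      ssum (Sum.inr j) (fun w₁ w₂ => ext q f w₁ * ext q g w₂) w := by
  induction w generalizing f with
  | nil => simp [ext, ssum_nil]
  | cons i w ih =>
    rw [ext_ssum_cons, inn_first q j f (fun v => ext q (fun Q => g (v ++ Q)) w) i, ssum_cons]
    simp only [ih]
    rw [list_ssum]
    congr 1
    congr 1
    funext u v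
    simp only [ext, smul_eq_mul]
    exact list_mul_sum (mons q i) (fun cm => ext q (fun Q => f (cm.2 ++ Q)) u) _

/-- splitting at an outer noise letter -/
theorem ext_ssum_out (q : ℝ) (i : K r) (f g : List (Let r) → ℝ) (w : List (K r)) :
    ext q (fun Q => ssum (out i) (fun Q₁ Q₂ => f Q₁ * g Q₂) Q) w =
      q * ssum i (fun w₁ w₂ => ext q f w₁ * ext q g w₂) w := by
  induction w generalizing f with
  | nil => simp [ext, ssum_nil]
  | cons k w ih =>
    rw [ext_ssum_cons, out_first q i f (fun v => ext q (fun Q => g (v ++ Q)) w) k, ssum_cons,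
      mul_add]
    simp only [ih]
    congr 1
    · split_ifs
      · rfl
      · simp
    · have h1 : ∀ cm : ℝ × List (Let r), cm.1 * (q * ssum i (fun w₁ w₂ =>
          ext q (fun Q => f (cm.2 ++ Q)) w₁ * ext q g w₂) w) = q * (cm.1 * ssum i (fun w₁ w₂ =>
          ext q (fun Q => f (cm.2 ++ Q)) w₁ * ext q g w₂) w) := fun cm => by ring
      simp only [h1]
      rw [List.sum_map_mul_left, list_ssum]
      congr 1
      congr 1
      funext u v
      simp only [ext, smul_eq_mul]
      exact list_mul_sum (mons q k) (fun cm => ext q (fun Q => f (cm.2 ++ Q)) u) _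

end P087
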