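import Vale.Agent.Lib.P087.W.Ext

/-! P087 part W: identities (2), (3) and the representation of `τ(α X_w)` by `Psi`. -/

namespace P087

variable {r : ℕ}

/-- identity (2) -/
theorem cX_split (q : ℝ) (u v : List (K r)) (i : K r) (w : List (K r)) :
    cX q (u ++ i :: v) w = q * ssum i (fun w₁ w₂ => cX q u w₁ * cX q v w₂) w := by
  unfold cX
  simp only [List.map_append, List.map_cons, cf_split]
  exact ext_ssum_out q i (fun Q => cf Q (u.map out)) (fun Q => cf Q (v.map out)) w

theorem cX_zero_of_lt (q : ℝ) (u w : List (K r)) (h : w.length < u.length) : cX q u w = 0 := by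
  induction u generalizing w with
  | nil => exact absurd h (by simp)
  | cons i u ih =>
    have h1 := cX_split q [] u i w
    rw [List.nil_append] at h1
    rw [h1]
    have h2 : ssum i (fun w₁ w₂ => cX q [] w₁ * cX q u w₂) w = 0 := by
      unfold ssum
      refine Finset.sum_eq_zero fun l hl => ?_
      have hl' := Finset.mem_range.1 hl
      split_ifs
      · show cX q [] (w.take l) * cX q u (w.drop (l + 1)) = 0
        rw [ih (w.drop (l + 1)) ?_, mul_zero]
        rw [List.length_drop]
        rw [List.length_cons] at h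
        omega
      · rfl
    rw [h2, mul_zero]

private theorem rep_ext_zero (q : ℝ) (w : List (K r)) :
    ext q (fun _ : List (Let r) => (0 : ℝ)) w = 0 := by
  have h := ext_const_mul q 0 (fun _ : List (Let r) => (0 : ℝ)) w
  simp only [zero_mul] at h
  exact h

private theorem rep_ext_sum {ι : Type} (q : ℝ) (s : Finset ι) (c : ι → ℝ)
    (f : ι → List (Let r) → ℝ) (w : List (K r)) :
    ext q (fun Q => ∑ l ∈ s, c l * f l Q) w = ∑ l ∈ s, c l * ext q (f l) w := by
  classical
  induction s using Finset.induction_on with
  | empty =>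
    simp only [Finset.sum_empty]
    exact rep_ext_zero q w
  | insert a s ha ih =>
    simp only [Finset.sum_insert ha]
    rw [ext_add, ext_const_mul, ih]

/-- identity (3) (`mom_cons`, `ssum_append`, `ext_ssum_hid`, `mom_comm`, `mom_map`) -/
theorem mom_rec (q : ℝ) (p : Fin r) (β : List (Fin r)) (w : List (K r)) :
    ext q (fun Q => mom ((p :: β).map hid ++ Q)) w =
      (∑ l : Fin β.length, if β[l] = p then
        mom (β.take l) * ext q (fun Q => mom ((β.drop (l + 1)).map hid ++ Q)) w else 0)
      + ∑ l : Fin w.length, ((Dp p w[l]).map fun uv =>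
        ext q (fun Q => mom ((uv.1 ++ β).map hid ++ Q)) (w.take l) *
        ext q (fun Q => mom (uv.2.map hid ++ Q)) (w.drop (l + 1))).sum := by
  have hinj : Function.Injective (hid : Fin r → Let r) :=
    fun a b h => Sum.inl.inj (Sum.inl.inj h)
  have h1 : ∀ Q : List (Let r), mom ((p :: β).map hid ++ Q) =
      (∑ l : Fin β.length, (if β[l] = p then mom (β.take l) else 0) *
        mom ((β.drop (l + 1)).map hid ++ Q)) +
      ssum (hid p) (fun Q₁ Q₂ => mom (β.map hid ++ Q₁) * mom Q₂) Q := by
    intro Q
    rw [List.map_cons, List.cons_append, mom_cons, ssum_append]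
    congr 1
    unfold ssum
    rw [List.length_map, Finset.sum_range]
    refine Finset.sum_congr rfl fun l _ => ?_
    rw [List.getElem?_map, List.getElem?_eq_getElem l.2, Option.map_some, ← List.map_take,
      ← List.map_drop]
    beta_reduce
    rw [mom_map hid hinj]
    by_cases hp : β[(l : ℕ)] = p
    · rw [if_pos (by rw [hp])]
      have hp' : β[l] = p := hp
      rw [if_pos hp']
    · rw [if_neg (fun h => hp (hinj (Option.some.inj h)))]
      have hp' : ¬ β[l] = p := hp
      rw [if_neg hp', zero_mul]
  have h2 : (fun Q : List (Let r) => mom ((p :: β).map hid ++ Q)) = fun Q =>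
      (∑ l : Fin β.length, (if β[l] = p then mom (β.take l) else 0) *
        mom ((β.drop (l + 1)).map hid ++ Q)) +
      ssum (hid p) (fun Q₁ Q₂ => mom (β.map hid ++ Q₁) * mom Q₂) Q := funext h1
  rw [h2, ext_add, rep_ext_sum,
    ext_ssum_hid q p (fun Q₁ => mom (β.map hid ++ Q₁)) (fun Q₂ => mom Q₂) w]
  congr 1
  · refine Finset.sum_congr rfl fun l _ => ?_
    split_ifs
    · rfl
    · rw [zero_mul]
  · refine Finset.sum_congr rfl fun l _ => ?_
    congr 1
    refine List.map_congr_left fun uv _ => ?_
    congr 2
    funext Q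
    rw [← List.append_assoc, mom_comm, ← List.append_assoc, ← List.map_append]

/-- lists of length less than `M` -/
private noncomputable def LF (r M : ℕ) : Finset (List (K r)) :=
  ((Finset.range M).sigma fun m => (Finset.univ : Finset (Fin m → K r))).image
    fun x => List.ofFn x.2

private theorem mem_LF {M : ℕ} {u : List (K r)} : u ∈ LF r M ↔ u.length < M := by
  unfold LF
  rw [Finset.mem_image]
  constructor
  · rintro ⟨⟨m, x⟩, hx, rfl⟩
    rw [List.length_ofFn]
    exact Finset.mem_range.1 (Finset.mem_sigma.1 hx).1
  · intro h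
    refine ⟨⟨u.length, u.get⟩, Finset.mem_sigma.2 ⟨Finset.mem_range.2 h, Finset.mem_univ _⟩, ?_⟩
    exact List.ofFn_get u

private theorem sum_LF (M : ℕ) (F : List (K r) → ℝ) :
    ∑ m ∈ Finset.range M, ∑ u : Fin m → K r, F (List.ofFn u) = ∑ u ∈ LF r M, F u := by
  unfold LF
  rw [Finset.sum_image, Finset.sum_sigma]
  rintro x _ y _ hxy
  exact List.ofFn_inj'.1 hxy

private theorem split_eq {u : List (K r)} {k : ℕ} {i : K r} (h : u[k]? = some i) :
    u = u.take k ++ i :: u.drop (k + 1) := by
  obtain ⟨hk, hi⟩ := List.getElem?_eq_some_iff.1 h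
  rw [← hi, ← List.drop_eq_getElem_cons hk, List.take_append_drop]

private theorem sum_ssum (M : ℕ) (i : K r) (F : List (K r) → List (K r) → ℝ)
    (hF : ∀ u v, M ≤ u.length + v.length + 1 → F u v = 0) :
    ∑ U ∈ LF r M, ssum i F U = ∑ u ∈ LF r M, ∑ v ∈ LF r M, F u v := by
  unfold ssum
  rw [Finset.sum_sigma', ← Finset.sum_filter, ← Finset.sum_product']
  refine Finset.sum_of_injOn (fun x : (Σ _ : List (K r), ℕ) => (x.1.take x.2, x.1.drop (x.2 + 1)))
    ?_ ?_ ?_ ?_
  · rintro ⟨U, k⟩ hx ⟨U', k'⟩ hx' hxy
    rw [Finset.mem_coe, Finset.mem_filter, Finset.mem_sigma, Finset.mem_range] at hx hx'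
    simp only [Prod.mk.injEq] at hxy
    obtain ⟨h1, h2⟩ := hxy
    have e1 := split_eq hx.2
    have e2 := split_eq hx'.2
    rw [← h1, ← h2] at e2
    have hU : U = U' := e1.trans e2.symm
    have hk : k = k' := by
      have h3 := congrArg List.length h1
      rw [List.length_take, List.length_take] at h3
      have h4 := hx.1.2
      have h5 := hx'.1.2
      simp only at h4 h5 h3
      omega
    subst hU
    subst hk
    rfl
  · rintro ⟨U, k⟩ hx
    rw [Finset.mem_coe, Finset.mem_filter, Finset.mem_sigma] at hx
    have h1 := mem_LF.1 hx.1.1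
    simp only at h1
    refine Finset.mem_coe.2 (Finset.mem_product.2 ⟨mem_LF.2 ?_, mem_LF.2 ?_⟩)
    · simp only [List.length_take]
      omega
    · simp only [List.length_drop]
      omega
  · rintro ⟨u, v⟩ _ huv
    by_contra hne
    apply huv
    have hlt : u.length + v.length + 1 < M := by
      by_contra hcon
      exact hne (hF u v (by omega))
    refine ⟨⟨u ++ i :: v, u.length⟩, ?_, ?_⟩
    · rw [Finset.mem_coe, Finset.mem_filter, Finset.mem_sigma]
      refine ⟨⟨mem_LF.2 ?_, Finset.mem_range.2 ?_⟩, ?_⟩
      · simp only [List.length_append, List.length_cons]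
        omega
      · simp only [List.length_append, List.length_cons]
        omega
      · simp
    · simp
  · intro x _
    rfl

private theorem sum_fin_ssum (H : K r → List (K r) → List (K r) → ℝ) (U : List (K r)) :
    ∑ k : Fin U.length, H U[k] (U.take k) (U.drop (k + 1)) = ∑ i : K r, ssum i (H i) U := by
  simp only [ssum_fin]
  rw [Finset.sum_comm]
  refine Finset.sum_congr rfl fun k _ => ?_
  rw [Finset.sum_ite_eq Finset.univ U[k] fun i => H i (U.take k) (U.drop (k + 1)),
    if_pos (Finset.mem_univ _)]

private theorem sum_list_sum {ι D : Type} (s : Finset ι) (L : List D) (f : D → ι → ℝ) :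
    ∑ u ∈ s, (L.map fun x => f x u).sum = (L.map fun x => ∑ u ∈ s, f x u).sum := by
  induction L with
  | nil => simp
  | cons a L ih =>
    simp only [List.map_cons, List.sum_cons]
    rw [Finset.sum_add_distrib, ih]

private theorem conv_LF (q : ℝ) (M : ℕ) (i : K r) (w : List (K r)) (hM : w.length < M)
    (F : List (K r) → List (K r) → ℝ) :
    ∑ U ∈ LF r M, ssum i F U * cX q U w =
      q * ssum i (fun w₁ w₂ => ∑ u ∈ LF r M, ∑ v ∈ LF r M, F u v * (cX q u w₁ * cX q v w₂)) w := by
  have h1 : ∀ U : List (K r), ssum i F U * cX q U w =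
      ssum i (fun u v => F u v * cX q (u ++ i :: v) w) U := by
    intro U
    unfold ssum
    rw [Finset.sum_mul]
    refine Finset.sum_congr rfl fun k _ => ?_
    split_ifs with h
    · beta_reduce
      rw [← split_eq h]
    · rw [zero_mul]
  simp only [h1]
  rw [sum_ssum M i _ ?_]
  · simp only [cX_split]
    unfold ssum
    simp only [Finset.mul_sum]
    have h2 : ∀ u ∈ LF r M, ∑ v ∈ LF r M, ∑ l ∈ Finset.range w.length, F u v * (q *
        (if w[l]? = some i then cX q u (w.take l) * cX q v (w.drop (l + 1)) else 0)) =
        ∑ l ∈ Finset.range w.length, ∑ v ∈ LF r M, F u v * (q *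
        (if w[l]? = some i then cX q u (w.take l) * cX q v (w.drop (l + 1)) else 0)) :=
      fun u _ => Finset.sum_comm
    rw [Finset.sum_congr rfl h2, Finset.sum_comm]
    refine Finset.sum_congr rfl fun l _ => ?_
    split_ifs
    · rw [Finset.mul_sum]
      refine Finset.sum_congr rfl fun u _ => ?_
      rw [Finset.mul_sum]
      refine Finset.sum_congr rfl fun v _ => ?_
      ring
    · simp only [mul_zero, Finset.sum_const_zero]
  · intro u v huv
    rw [cX_zero_of_lt, mul_zero]
    rw [List.length_append, List.length_cons]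
    omega

private theorem prod_LF {D : Type} (L : List D) (s : Finset (List (K r)))
    (P P' : D → List (K r) → ℝ) (a b : List (K r) → ℝ) :
    ∑ u ∈ s, ∑ v ∈ s, (L.map fun x => P x u * P' x v).sum * (a u * b v) =
      (L.map fun x => (∑ u ∈ s, P x u * a u) * ∑ v ∈ s, P' x v * b v).sum := by
  have h1 : ∀ u v, (L.map fun x => P x u * P' x v).sum * (a u * b v) =
      (L.map fun x => (P x u * a u) * (P' x v * b v)).sum := by
    intro u v
    rw [← List.sum_map_mul_right]
    congr 1
    refine List.map_congr_left fun x _ => ?_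
    ring
  simp only [h1, sum_list_sum]
  congr 1
  refine List.map_congr_left fun x _ => ?_
  rw [Finset.sum_mul_sum]

private theorem rep_LF (q : ℝ) (hq : q ≠ 0) (d : ℕ) : ∀ (n : ℕ) (α : List (Fin r)), α.length ≤ n →
    ∀ (w : List (K r)), w.length ≤ d → ∀ M : ℕ, w.length < M →
    ext q (fun Q => mom (α.map hid ++ Q)) w = ∑ u ∈ LF r M, Psi q d α u * cX q u w := by
  induction d with
  | zero =>
    intro n α _ w hw M hM
    have hw0 : w = [] := List.eq_nil_of_length_eq_zero (Nat.le_zero.1 hw)
    subst hw0
    have hinj : Function.Injective (hid : Fin r → Let r) :=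
      fun a b h => Sum.inl.inj (Sum.inl.inj h)
    rw [Finset.sum_eq_single []]
    · have h1 : Psi q 0 α [] = mom α := by
        rw [Psi, if_pos rfl]
      have h2 : cX q ([] : List (K r)) [] = 1 := rfl
      rw [h1, h2, mul_one]
      show mom (α.map hid ++ []) = mom α
      rw [List.append_nil, mom_map hid hinj]
    · intro u _ hu
      rw [Psi, if_neg hu, zero_mul]
    · intro h
      exact absurd (mem_LF.2 hM) h
  | succ d ihd =>
    intro n
    induction n with
    | zero =>
      intro α hα w hw M hM
      have hα0 : α = [] := List.eq_nil_of_length_eq_zero (Nat.le_zero.1 hα)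
      subst hα0
      rw [Finset.sum_eq_single []]
      · have h1 : Psi (r := r) q (d + 1) [] [] = 1 := by
          rw [Psi, if_pos rfl]
        rw [h1, one_mul]
        rfl
      · intro u _ hu
        rw [Psi, if_neg hu, zero_mul]
      · intro h
        refine absurd (mem_LF.2 ?_) h
        rw [List.length_nil]
        omega
    | succ n ihn =>
      intro α hα w hw M hM
      cases α with
      | nil => exact ihn [] (by simp) w hw M hM
      | cons p β =>
        rw [List.length_cons] at hα
        rw [mom_rec]
        have h1 : ∀ U : List (K r), Psi q (d + 1) (p :: β) U * cX q U w =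
            (∑ l : Fin β.length, if β[l] = p then
              mom (β.take l) * (Psi q (d + 1) (β.drop (l + 1)) U * cX q U w) else 0)
            + q⁻¹ * ∑ i : K r, ssum i (fun u v => ((Dp p i).map fun uv =>
              Psi q d (uv.1 ++ β) u * Psi q d uv.2 v).sum) U * cX q U w := by
          intro U
          rw [Psi, add_mul]
          congr 1
          · rw [Finset.sum_mul]
            refine Finset.sum_congr rfl fun l _ => ?_
            split_ifs
            · ring
            · rw [zero_mul]
          · rw [sum_fin_ssum (fun i u v => ((Dp p i).map fun uv =>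
              Psi q d (uv.1 ++ β) u * Psi q d uv.2 v).sum) U, mul_assoc, Finset.sum_mul]
        rw [Finset.sum_congr rfl fun U _ => h1 U, Finset.sum_add_distrib]
        congr 1
        · rw [Finset.sum_comm]
          refine Finset.sum_congr rfl fun l _ => ?_
          split_ifs
          · rw [← Finset.mul_sum, ihn (β.drop (l + 1)) ?_ w hw M hM]
            rw [List.length_drop]
            omega
          · rw [Finset.sum_const_zero]
        · rw [← Finset.mul_sum, Finset.sum_comm]
          have h2 : ∀ i : K r, ∑ U ∈ LF r M, ssum i (fun u v => ((Dp p i).map fun uv =>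
              Psi q d (uv.1 ++ β) u * Psi q d uv.2 v).sum) U * cX q U w =
              q * ssum i (fun w₁ w₂ => ((Dp p i).map fun uv =>
                (∑ u ∈ LF r M, Psi q d (uv.1 ++ β) u * cX q u w₁) *
                  ∑ v ∈ LF r M, Psi q d uv.2 v * cX q v w₂).sum) w := by
            intro i
            rw [conv_LF q M i w hM]
            congr 2
            funext w₁ w₂
            exact prod_LF (Dp p i) (LF r M) (fun uv => Psi q d (uv.1 ++ β))
              (fun uv => Psi q d uv.2) (fun u => cX q u w₁) (fun v => cX q v w₂)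
          rw [Finset.sum_congr rfl fun i _ => h2 i, ← Finset.mul_sum, ← mul_assoc,
            inv_mul_cancel₀ hq, one_mul,
            ← sum_fin_ssum (fun i w₁ w₂ => ((Dp p i).map fun uv =>
                (∑ u ∈ LF r M, Psi q d (uv.1 ++ β) u * cX q u w₁) *
                  ∑ v ∈ LF r M, Psi q d uv.2 v * cX q v w₂).sum) w]
          refine Finset.sum_congr rfl fun l _ => ?_
          congr 1
          refine List.map_congr_left fun uv _ => ?_
          have hl := l.2
          rw [ihd _ (uv.1 ++ β) le_rfl (w.take l) (by rw [List.length_take]; omega) M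
              (by rw [List.length_take]; omega),
            ihd _ uv.2 le_rfl (w.drop (l + 1)) (by rw [List.length_drop]; omega) M
              (by rw [List.length_drop]; omega)]

/-- representation: `τ(α X_w(t)) = Σ_u Ψ_α^{(d)}(u) ⟪e'_u, X_w(t) Ω⟫` for `|w| ≤ d` -/
theorem Psi_rep (q : ℝ) (hq : q ≠ 0) (d : ℕ) (α : List (Fin r)) (w : List (K r)) (hw : w.length ≤ d)
    (M : ℕ) (hM : w.length < M) :
    ext q (fun Q => mom (α.map hid ++ Q)) w =
      ∑ m ∈ Finset.range M, ∑ u : Fin m → K r, Psi q d α (List.ofFn u) * cX q (List.ofFn u) w := by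
  rw [sum_LF M fun u => Psi q d α u * cX q u w]
  exact rep_LF q hq d _ α le_rfl w hw M hM

end P087
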