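import Vale.Agent.Lib.P087.W.Cf

/-! P087 part W: moment norms. -/

namespace P087

/-- sum of `F` over the words of length `n` -/
private noncomputable def nSS (r n : ℕ) (F : List (Fin r) → ℝ) : ℝ :=
  ∑ β : Fin n → Fin r, F (List.ofFn β)

private lemma nSS_zero (r : ℕ) (F : List (Fin r) → ℝ) : nSS r 0 F = F [] := by
  simp [nSS]

private lemma nSS_succ (r n : ℕ) (F : List (Fin r) → ℝ) :
    nSS r (n + 1) F = ∑ p : Fin r, nSS r n fun w => F (p :: w) := by
  unfold nSS
  rw [← (Fin.consEquiv fun _ : Fin (n + 1) => Fin r).sum_comp, Fintype.sum_prod_type]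
  refine Finset.sum_congr rfl fun p _ => Finset.sum_congr rfl fun w _ => ?_
  simp [Fin.consEquiv, List.ofFn_succ]

private lemma nSS_congr (r n : ℕ) {F G : List (Fin r) → ℝ}
    (h : ∀ w : List (Fin r), w.length = n → F w = G w) : nSS r n F = nSS r n G :=
  Finset.sum_congr rfl fun β _ => h _ (by simp)

private lemma nSS_add (r l m : ℕ) (F : List (Fin r) → ℝ) :
    nSS r (l + m) F = nSS r l fun u => nSS r m fun v => F (u ++ v) := by
  induction l generalizing F with
  | zero => rw [nSS_zero, Nat.zero_add]; rfl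
  | succ l ih =>
    rw [show l + 1 + m = (l + m) + 1 by omega, nSS_succ, nSS_succ]
    refine Finset.sum_congr rfl fun p _ => ?_
    rw [ih]
    rfl

private noncomputable def nNN (r n : ℕ) (f : List (Fin r) → ℝ) : ℝ :=
  Real.sqrt (nSS r n fun w => f w ^ 2)

private lemma nNN_eq_norm (r n : ℕ) (f : List (Fin r) → ℝ) :
    nNN r n f = ‖(WithLp.toLp 2 (fun β : Fin n → Fin r => f (List.ofFn β)) :
      EuclideanSpace ℝ (Fin n → Fin r))‖ := by
  rw [EuclideanSpace.norm_eq]
  simp [nNN, nSS]

private lemma nNN_sum (r n : ℕ) {ι : Type} (s : Finset ι) (f : ι → List (Fin r) → ℝ) :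
    nNN r n (fun w => ∑ i ∈ s, f i w) ≤ ∑ i ∈ s, nNN r n (f i) := by
  simp only [nNN_eq_norm]
  refine le_trans (le_of_eq ?_) (norm_sum_le s _)
  congr 1
  ext β
  simp

private lemma nNN_congr (r n : ℕ) {F G : List (Fin r) → ℝ}
    (h : ∀ w : List (Fin r), w.length = n → F w = G w) : nNN r n F = nNN r n G := by
  unfold nNN
  rw [nSS_congr r n (G := fun w => G w ^ 2)]
  intro w hw
  simp only [h w hw]

private lemma ak_eq (r k : ℕ) : ak r k = nNN r k mom := rfl

/-- the summand of position `l` -/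
private noncomputable def nG (r l : ℕ) : List (Fin r) → ℝ
  | [] => 0
  | p :: β => if β[l]? = some p then mom (β.take l) * mom (β.drop (l + 1)) else 0

private lemma nSS_mul_left (r n : ℕ) (c : ℝ) (F : List (Fin r) → ℝ) :
    nSS r n (fun w => c * F w) = c * nSS r n F := by
  unfold nSS
  rw [Finset.mul_sum]

private lemma nSS_mul_right (r n : ℕ) (c : ℝ) (F : List (Fin r) → ℝ) :
    nSS r n (fun w => F w * c) = nSS r n F * c := by
  unfold nSS
  rw [Finset.sum_mul]

private lemma nSS_nonneg (r n : ℕ) (F : List (Fin r) → ℝ) (h : ∀ w, 0 ≤ F w) : 0 ≤ nSS r n F :=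
  Finset.sum_nonneg fun _ _ => h _

private lemma nG_sq (r k l : ℕ) (hl : l ≤ k) :
    nSS r (k + 2) (fun w => nG r l w ^ 2)
      = r * ((nSS r l fun w => mom w ^ 2) * (nSS r (k - l) fun w => mom w ^ 2)) := by
  rw [nSS_succ]
  have h : ∀ p : Fin r, (nSS r (k + 1) fun w => nG r l (p :: w) ^ 2)
      = (nSS r l fun w => mom w ^ 2) * (nSS r (k - l) fun w => mom w ^ 2) := by
    intro p
    rw [show k + 1 = l + ((k - l) + 1) by omega, nSS_add, ← nSS_mul_right]
    refine nSS_congr _ _ fun u hu => ?_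
    rw [nSS_succ]
    have h2 : ∀ a : Fin r, (nSS r (k - l) fun v => nG r l (p :: (u ++ a :: v)) ^ 2)
        = if a = p then mom u ^ 2 * (nSS r (k - l) fun v => mom v ^ 2) else 0 := by
      intro a
      by_cases ha : a = p
      · rw [if_pos ha, ← nSS_mul_left]
        refine nSS_congr _ _ fun v _ => ?_
        subst hu
        simp [nG, ha, mul_pow]
      · rw [if_neg ha]
        have : nSS r (k - l) (fun _ => (0 : ℝ)) = 0 := by simp [nSS]
        rw [← this]
        refine nSS_congr _ _ fun v _ => ?_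
        subst hu
        simp [nG, ha]
    simp only [h2]
    rw [Finset.sum_ite_eq' Finset.univ p]
    simp
  simp only [h]
  rw [Finset.sum_const, Finset.card_univ, Fintype.card_fin, nsmul_eq_mul]

private lemma nG_norm (r k l : ℕ) (hl : l ≤ k) :
    nNN r (k + 2) (nG r l) = Real.sqrt r * ak r l * ak r (k - l) := by
  unfold nNN
  rw [nG_sq r k l hl, Real.sqrt_mul (by positivity),
    Real.sqrt_mul (nSS_nonneg _ _ _ fun _ => sq_nonneg _), mul_assoc]
  rfl

/-- one step: `a_{k+2} ≤ √r Σ_{i ≤ k} a_i a_{k-i}` (mom_cons; `α = p :: β`, for each splitting position of `β` the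
`ℓ²` norm over `(p, b1, b2)` is `√r a_i a_{k-i}`; triangle inequality in `ℓ²`) -/
theorem ak_step (r k : ℕ) :
    ak r (k + 2) ≤ ∑ i ∈ Finset.range (k + 1), Real.sqrt r * ak r i * ak r (k - i) := by
  have h1 : ak r (k + 2) = nNN r (k + 2) (fun w => ∑ l ∈ Finset.range (k + 1), nG r l w) := by
    rw [ak_eq]
    refine nNN_congr _ _ fun w hw => ?_
    cases w with
    | nil => simp at hw
    | cons p β =>
      have hβ : β.length = k + 1 := by simpa using hw
      rw [mom_cons, ssum, hβ]
      rfl
  rw [h1]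
  refine (nNN_sum _ _ _ _).trans (le_of_eq ?_)
  refine Finset.sum_congr rfl fun l hl => ?_
  rw [nG_norm]
  have := Finset.mem_range.mp hl
  omega

private lemma ak_odd (r k : ℕ) (hk : Odd k) : ak r k = 0 := by
  unfold ak
  rw [Finset.sum_eq_zero, Real.sqrt_zero]
  intro α _
  rw [mom_odd _ (by simpa using hk)]
  simp

private lemma ak_nonneg' (r k : ℕ) : 0 ≤ ak r k := Real.sqrt_nonneg _

private lemma ak_zero (r : ℕ) : ak r 0 = 1 := by
  simp [ak, mom_nil]

private lemma sum_range_even (n : ℕ) (f : ℕ → ℝ) (hf : ∀ i, Odd i → f i = 0) :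
    ∑ i ∈ Finset.range (2 * n + 1), f i = ∑ j ∈ Finset.range (n + 1), f (2 * j) := by
  induction n with
  | zero => simp
  | succ n ih =>
    rw [show 2 * (n + 1) + 1 = (2 * n + 1) + 1 + 1 by ring, Finset.sum_range_succ,
      Finset.sum_range_succ, ih, Finset.sum_range_succ _ (n + 1), hf (2 * n + 1) ⟨n, rfl⟩,
      add_zero]
    rfl

private lemma ak_cat (r n : ℕ) : ak r (2 * n) ≤ (catalan n : ℝ) * (Real.sqrt r) ^ n := by
  induction n using Nat.strong_induction_on with
  | _ n ih =>
    cases n with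
    | zero => simp [ak_zero]
    | succ n =>
      rw [show 2 * (n + 1) = 2 * n + 2 by ring]
      refine (ak_step r (2 * n)).trans ?_
      rw [sum_range_even n (fun i => Real.sqrt r * ak r i * ak r (2 * n - i))
        (fun i hi => by simp only [ak_odd r i hi, mul_zero, zero_mul]), catalan_succ',
        Finset.Nat.sum_antidiagonal_eq_sum_range_succ_mk]
      push_cast
      rw [Finset.sum_mul]
      refine Finset.sum_le_sum fun j hj => ?_
      have hj' : j ≤ n := by
        have := Finset.mem_range.mp hj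
        omega
      have e1 := ih j (by omega)
      have e2 := ih (n - j) (by omega)
      rw [show 2 * n - 2 * j = 2 * (n - j) by omega]
      have hs := Real.sqrt_nonneg (r : ℝ)
      calc Real.sqrt r * ak r (2 * j) * ak r (2 * (n - j))
          ≤ Real.sqrt r * ((catalan j : ℝ) * (Real.sqrt r) ^ j)
            * ((catalan (n - j) : ℝ) * (Real.sqrt r) ^ (n - j)) := by
            have a1 := ak_nonneg' r (2 * j)
            have a2 := ak_nonneg' r (2 * (n - j))
            gcongr
        _ = (catalan j : ℝ) * (catalan (n - j) : ℝ) * (Real.sqrt r) ^ (n + 1) := by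
            have : (Real.sqrt r) ^ (n + 1) = Real.sqrt r * ((Real.sqrt r) ^ j
                * (Real.sqrt r) ^ (n - j)) := by
              rw [← pow_add, show j + (n - j) = n by omega, pow_succ]
              ring
            rw [this]
            ring

private lemma catalan_le (n : ℕ) : (catalan n : ℝ) ≤ 4 ^ n := by
  have h : catalan n ≤ 4 ^ n := by
    rw [catalan_eq_centralBinom_div]
    refine (Nat.div_le_self _ _).trans ?_
    rw [Nat.centralBinom, show (4 : ℕ) ^ n = 2 ^ (2 * n) by rw [pow_mul]; norm_num]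
    exact Nat.choose_le_two_pow _ _
  exact_mod_cast h

/-- `a_k ≤ 2^k r^(k/4)`, from `ak_step` and Catalan numbers (`a_k = 0` for odd `k` by `mom_odd`; `catalan n ≤ 4^n`) -/
theorem ak_le (r k : ℕ) : ak r k ≤ 2 ^ k * (r : ℝ) ^ ((k : ℝ) / 4) := by
  rcases Nat.even_or_odd k with hk | hk
  · obtain ⟨n, rfl⟩ := hk.two_dvd
    refine (ak_cat r n).trans ?_
    have h1 : (r : ℝ) ^ (((2 * n : ℕ) : ℝ) / 4) = (Real.sqrt r) ^ n := by
      rw [Real.sqrt_eq_rpow, ← Real.rpow_mul_natCast (by positivity)]
      congr 1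
      push_cast
      ring
    rw [h1, show (2 : ℝ) ^ (2 * n) = 4 ^ n by rw [pow_mul]; norm_num]
    exact mul_le_mul_of_nonneg_right (catalan_le n) (by positivity)
  · rw [ak_odd r k hk]
    positivity

end P087
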