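import Vale.Agent.Lib.P087.W.Cf

/-! P087 part W: trivial cases of `nk`. -/

namespace P087

private theorem NormC_psi_zero {r : ℕ} (q : ℝ) (α : List (Fin r)) (u : List (K r)) :
    Psi q 0 α u = if u = [] then mom α else 0 := by
  rw [Psi]

private theorem NormC_psi_nil {r : ℕ} (q : ℝ) (d : ℕ) (u : List (K r)) :
    Psi q d [] u = if u = [] then 1 else 0 := by
  cases d with
  | zero => rw [NormC_psi_zero, mom_nil]
  | succ d => rw [Psi]

private theorem NormC_ofFn_zero {A : Type} (f : Fin 0 → A) : List.ofFn f = [] := by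
  simp

private theorem NormC_ofFn_succ {A : Type} {m : ℕ} (f : Fin (m + 1) → A) :
    List.ofFn f ≠ [] := by
  intro h
  have := congrArg List.length h
  simp at this

theorem nk_nonneg (r : ℕ) (q : ℝ) (d k m : ℕ) : 0 ≤ nk r q d k m := by
  unfold nk
  exact Real.sqrt_nonneg _

theorem nk_zero_left (r : ℕ) (q : ℝ) (d m : ℕ) : nk r q d 0 m = if m = 0 then 1 else 0 := by
  unfold nk
  rcases m with _ | m
  · rw [if_pos rfl]
    have h : ∀ (α : Fin 0 → Fin r) (u : Fin 0 → K r),
        (Psi q d (List.ofFn α) (List.ofFn u)) ^ 2 = 1 := by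
      intro α u
      rw [NormC_ofFn_zero α, NormC_ofFn_zero u, NormC_psi_nil, if_pos rfl, one_pow]
    simp only [h]
    simp
  · rw [if_neg (Nat.succ_ne_zero m)]
    have h : ∀ (α : Fin 0 → Fin r) (u : Fin (m + 1) → K r),
        (Psi q d (List.ofFn α) (List.ofFn u)) ^ 2 = 0 := by
      intro α u
      rw [NormC_ofFn_zero α, NormC_psi_nil, if_neg (NormC_ofFn_succ u)]
      norm_num
    simp only [h]
    simp

theorem nk_zero (r : ℕ) (q : ℝ) (k m : ℕ) : nk r q 0 k m = if m = 0 then ak r k else 0 := by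
  unfold nk
  rcases m with _ | m
  · rw [if_pos rfl]
    unfold ak
    have h : ∀ (α : Fin k → Fin r) (u : Fin 0 → K r),
        (Psi q 0 (List.ofFn α) (List.ofFn u)) ^ 2 = (mom (List.ofFn α)) ^ 2 := by
      intro α u
      rw [NormC_ofFn_zero u, NormC_psi_zero, if_pos rfl]
    simp only [h]
    simp
  · rw [if_neg (Nat.succ_ne_zero m)]
    have h : ∀ (α : Fin k → Fin r) (u : Fin (m + 1) → K r),
        (Psi q 0 (List.ofFn α) (List.ofFn u)) ^ 2 = 0 := by
      intro α u
      rw [NormC_psi_zero, if_neg (NormC_ofFn_succ u)]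
      norm_num
    simp only [h]
    simp

end P087
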