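import Vale.Agent.Lib.P087.W.Norm
import Vale.Agent.Lib.P087.W.NormA
import Vale.Agent.Lib.P087.W.NormC

/-! P087 part W: the final norm bounds. -/

namespace P087

theorem Bound_conv (f g : ℕ → ℝ) (hf : ∀ n, 0 ≤ f n) (hg : ∀ n, 0 ≤ g n) (M : ℕ) :
    ∑ m ∈ Finset.range M, ∑ l ∈ Finset.range m, f l * g (m - 1 - l) ≤
      (∑ l ∈ Finset.range M, f l) * ∑ l ∈ Finset.range M, g l := by
  have h1 : ∑ m ∈ Finset.range M, ∑ l ∈ Finset.range m, f l * g (m - 1 - l) =
      ∑ l ∈ Finset.range M, ∑ m ∈ Finset.Ico (l + 1) M, f l * g (m - 1 - l) := by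
    refine Finset.sum_comm' ?_
    intro x y
    simp only [Finset.mem_range, Finset.mem_Ico]
    omega
  rw [h1, Finset.sum_mul]
  refine Finset.sum_le_sum fun l hl => ?_
  rw [← Finset.mul_sum]
  refine mul_le_mul_of_nonneg_left ?_ (hf l)
  rw [Finset.sum_Ico_eq_sum_range]
  have h2 : ∀ i, g (l + 1 + i - 1 - l) = g i := by
    intro i
    congr 1
    omega
  simp only [h2]
  refine Finset.sum_le_sum_of_subset_of_nonneg ?_ fun i _ _ => hg i
  intro i hi
  rw [Finset.mem_range] at hi ⊢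
  omega

theorem Bound_rpow (r k : ℕ) : (r : ℝ) ^ ((k : ℝ) / 4) = ((r : ℝ) ^ ((1 : ℝ) / 4)) ^ k := by
  rw [← Real.rpow_natCast, ← Real.rpow_mul (Nat.cast_nonneg r)]
  congr 1
  ring

theorem Bound_sqrt (r : ℕ) : Real.sqrt r = ((r : ℝ) ^ ((1 : ℝ) / 4)) ^ 2 := by
  rw [← Bound_rpow, Real.sqrt_eq_rpow]
  congr 1
  norm_num

theorem Bound_three (r : ℕ) : (r : ℝ) ^ ((3 : ℝ) / 2) = ((r : ℝ) ^ ((1 : ℝ) / 4)) ^ 6 := by
  rw [← Bound_rpow]
  congr 1
  norm_num

theorem Bound_geom (k : ℕ) :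
    ∑ i ∈ Finset.range k, (2 : ℝ) ^ i * 4 ^ (k - 1 - i) ≤ 4 ^ (k + 1) / 8 := by
  rcases Nat.eq_zero_or_pos k with rfl | hk
  · norm_num
  have h1 : ∀ i ∈ Finset.range k, (2 : ℝ) ^ i * 4 ^ (k - 1 - i) = 4 ^ (k - 1) * (1 / 2) ^ i := by
    intro i hi
    rw [Finset.mem_range] at hi
    have h2 : (4 : ℝ) ^ (k - 1) = 4 ^ (k - 1 - i) * 4 ^ i := by
      rw [← pow_add]
      congr 1
      omega
    rw [h2, mul_assoc, ← mul_pow]
    norm_num
    ring
  rw [Finset.sum_congr rfl h1, ← Finset.mul_sum]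
  have h3 : ∑ i ∈ Finset.range k, (1 / 2 : ℝ) ^ i ≤ 2 := by
    have h := summable_geometric_two.sum_le_tsum (Finset.range k) (fun n _ => by positivity)
    rwa [tsum_geometric_two] at h
  obtain ⟨j, rfl⟩ : ∃ j, k = j + 1 := ⟨k - 1, by omega⟩
  have h4 : (4 : ℝ) ^ (j + 1 + 1) / 8 = 4 ^ (j + 1 - 1) * 2 := by
    rw [Nat.add_sub_cancel, pow_succ, pow_succ]
    ring
  rw [h4]
  gcongr

theorem Bound_main (r : ℕ) (hr : 1 ≤ r) (q : ℝ) (hq : 0 < q)
    (hq2 : 2500 * (r : ℝ) ^ ((3 : ℝ) / 2) ≤ q ^ 2) (M : ℕ) (d k : ℕ) :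
    ∑ m ∈ Finset.range M, nk r q d k m ≤ 4 ^ k * ((r : ℝ) ^ ((1 : ℝ) / 4)) ^ k := by
  obtain ⟨ρ, hρ⟩ : ∃ ρ, ρ = (r : ℝ) ^ ((1 : ℝ) / 4) := ⟨_, rfl⟩
  have hr' : (1 : ℝ) ≤ r := by exact_mod_cast hr
  have hρ1 : 1 ≤ ρ := by
    rw [hρ]
    exact Real.one_le_rpow hr' (by norm_num)
  have hρ0 : 0 < ρ := by linarith
  have hsq : Real.sqrt r = ρ ^ 2 := by rw [hρ]; exact Bound_sqrt r
  have hq3 : 50 * ρ ^ 3 ≤ q := by
    rw [Bound_three, ← hρ] at hq2
    have h1 : (50 * ρ ^ 3) ^ 2 ≤ q ^ 2 := by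
      refine le_trans (le_of_eq ?_) hq2
      ring
    exact (pow_le_pow_iff_left₀ (by positivity) hq.le (by norm_num)).1 h1
  have hak : ∀ i, ak r i ≤ 2 ^ i * ρ ^ i := by
    intro i
    have := ak_le r i
    rw [Bound_rpow, ← hρ] at this
    exact this
  have hone : ∀ d, ∑ m ∈ Finset.range M, nk r q d 0 m ≤ 1 := by
    intro d
    simp only [nk_zero_left]
    rw [Finset.sum_ite_eq']
    split_ifs <;> norm_num
  rw [← hρ]
  induction d generalizing k with
  | zero =>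
    simp only [nk_zero]
    rw [Finset.sum_ite_eq']
    have h1 : ak r k ≤ 4 ^ k * ρ ^ k := by
      refine (hak k).trans ?_
      gcongr
      norm_num
    split_ifs
    · exact h1
    · positivity
  | succ d ih =>
    induction k using Nat.strong_induction_on with
    | _ k ihk =>
      rcases k with _ | k
      · simpa using hone (d + 1)
      · have hn := nk_nonneg r q
        have e1 : ∑ m ∈ Finset.range M, nk r q (d + 1) (k + 1) m ≤
            ∑ m ∈ Finset.range M,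
              ((∑ i ∈ Finset.range k, Real.sqrt r * ak r i * nk r q (d + 1) (k - 1 - i) m)
      + q⁻¹ * Real.sqrt r * ∑ l ∈ Finset.range m,
        (2 * nk r q d k l * nk r q d 2 (m - 1 - l) + 2 * nk r q d (k + 1) l * nk r q d 1 (m - 1 - l)
          + 2 * nk r q d (k + 2) l * nk r q d 0 (m - 1 - l)
          + nk r q d k l * nk r q d 0 (m - 1 - l))) :=
          Finset.sum_le_sum fun m _ => nk_step r q hq d k m
        have e2 : ∑ m ∈ Finset.range M,
            (∑ i ∈ Finset.range k, Real.sqrt r * ak r i * nk r q (d + 1) (k - 1 - i) m) ≤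
            ρ ^ (k + 1) * (4 ^ (k + 1) / 8) := by
          rw [Finset.sum_comm]
          have e3 : ∀ i ∈ Finset.range k, ∑ m ∈ Finset.range M,
              Real.sqrt r * ak r i * nk r q (d + 1) (k - 1 - i) m ≤
              ρ ^ (k + 1) * ((2 : ℝ) ^ i * 4 ^ (k - 1 - i)) := by
            intro i hi
            rw [Finset.mem_range] at hi
            rw [← Finset.mul_sum, hsq]
            have h3 := ihk (k - 1 - i) (by omega)
            have h4 : ρ ^ (k + 1) = ρ ^ 2 * ρ ^ i * ρ ^ (k - 1 - i) := by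
              rw [← pow_add, ← pow_add]
              congr 1
              omega
            have h5 : 0 ≤ ak r i := Real.sqrt_nonneg _
            calc ρ ^ 2 * ak r i * ∑ m ∈ Finset.range M, nk r q (d + 1) (k - 1 - i) m
                ≤ ρ ^ 2 * (2 ^ i * ρ ^ i) * (4 ^ (k - 1 - i) * ρ ^ (k - 1 - i)) :=
                  mul_le_mul (mul_le_mul_of_nonneg_left (hak i) (sq_nonneg _)) h3
                    (Finset.sum_nonneg fun m _ => hn _ _ m) (by positivity)
              _ = ρ ^ (k + 1) * ((2 : ℝ) ^ i * 4 ^ (k - 1 - i)) := by rw [h4]; ring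
          refine (Finset.sum_le_sum e3).trans ?_
          rw [← Finset.mul_sum]
          exact mul_le_mul_of_nonneg_left (Bound_geom k) (by positivity)
        have e4 : ∑ m ∈ Finset.range M, (q⁻¹ * Real.sqrt r * ∑ l ∈ Finset.range m,
        (2 * nk r q d k l * nk r q d 2 (m - 1 - l) + 2 * nk r q d (k + 1) l * nk r q d 1 (m - 1 - l)
          + 2 * nk r q d (k + 2) l * nk r q d 0 (m - 1 - l)
          + nk r q d k l * nk r q d 0 (m - 1 - l))) ≤
            ρ ^ (k + 1) * 4 ^ (k + 1) * (97 / 200) := by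
          rw [← Finset.mul_sum]
          have e5 : ∑ m ∈ Finset.range M, ∑ l ∈ Finset.range m,
              (2 * nk r q d k l * nk r q d 2 (m - 1 - l)
                + 2 * nk r q d (k + 1) l * nk r q d 1 (m - 1 - l)
                + 2 * nk r q d (k + 2) l * nk r q d 0 (m - 1 - l)
                + nk r q d k l * nk r q d 0 (m - 1 - l)) ≤
              4 ^ k * ρ ^ k * (97 * ρ ^ 2) := by
            have c1 := Bound_conv (nk r q d k) (nk r q d 2) (hn d k) (hn d 2) M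
            have c2 := Bound_conv (nk r q d (k + 1)) (nk r q d 1) (hn d _) (hn d _) M
            have c3 := Bound_conv (nk r q d (k + 2)) (nk r q d 0) (hn d _) (hn d _) M
            have c4 := Bound_conv (nk r q d k) (nk r q d 0) (hn d _) (hn d _) M
            have s0 : 0 ≤ ∑ m ∈ Finset.range M, nk r q d 0 m := Finset.sum_nonneg fun m _ => hn d 0 m
            have s1 : 0 ≤ ∑ m ∈ Finset.range M, nk r q d 1 m := Finset.sum_nonneg fun m _ => hn d 1 m
            have s2 : 0 ≤ ∑ m ∈ Finset.range M, nk r q d 2 m := Finset.sum_nonneg fun m _ => hn d 2 m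
            have p1 := mul_le_mul (ih k) (ih 2) s2 (by positivity)
            have p2 := mul_le_mul (ih (k + 1)) (ih 1) s1 (by positivity)
            have p3 := mul_le_mul (ih (k + 2)) (hone d) s0 (by positivity)
            have p4 := mul_le_mul (ih k) (hone d) s0 (by positivity)
            have e6 : ∑ m ∈ Finset.range M, ∑ l ∈ Finset.range m,
              (2 * nk r q d k l * nk r q d 2 (m - 1 - l)
                + 2 * nk r q d (k + 1) l * nk r q d 1 (m - 1 - l)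
                + 2 * nk r q d (k + 2) l * nk r q d 0 (m - 1 - l)
                + nk r q d k l * nk r q d 0 (m - 1 - l)) =
              2 * (∑ m ∈ Finset.range M, ∑ l ∈ Finset.range m, nk r q d k l * nk r q d 2 (m - 1 - l))
              + 2 * (∑ m ∈ Finset.range M, ∑ l ∈ Finset.range m,
                nk r q d (k + 1) l * nk r q d 1 (m - 1 - l))
              + 2 * (∑ m ∈ Finset.range M, ∑ l ∈ Finset.range m,
                nk r q d (k + 2) l * nk r q d 0 (m - 1 - l))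
              + ∑ m ∈ Finset.range M, ∑ l ∈ Finset.range m,
                nk r q d k l * nk r q d 0 (m - 1 - l) := by
              simp only [Finset.mul_sum, ← Finset.sum_add_distrib, mul_assoc]
            rw [e6]
            have h7 : 4 ^ k * ρ ^ k * 1 ≤ 4 ^ k * ρ ^ k * ρ ^ 2 := by
              have : 1 ≤ ρ ^ 2 := one_le_pow₀ hρ1
              gcongr
            have h8 : (4 : ℝ) ^ k * ρ ^ k * (4 ^ 2 * ρ ^ 2) = 4 ^ k * ρ ^ k * (16 * ρ ^ 2) := by ring
            have h9 : (4 : ℝ) ^ (k + 1) * ρ ^ (k + 1) * (4 ^ 1 * ρ ^ 1) =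
              4 ^ k * ρ ^ k * (16 * ρ ^ 2) := by ring
            have h10 : (4 : ℝ) ^ (k + 2) * ρ ^ (k + 2) * 1 = 4 ^ k * ρ ^ k * (16 * ρ ^ 2) := by ring
            rw [h8] at p1
            rw [h9] at p2
            rw [h10] at p3
            linarith
          have h11 : 0 ≤ q⁻¹ * Real.sqrt r := by positivity
          refine (mul_le_mul_of_nonneg_left e5 h11).trans ?_
          have h12 : q⁻¹ * ρ ^ 3 ≤ 1 / 50 := by
            rw [inv_mul_le_iff₀ hq]
            linarith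
          rw [hsq]
          calc q⁻¹ * ρ ^ 2 * (4 ^ k * ρ ^ k * (97 * ρ ^ 2))
              = 97 * (4 ^ k * ρ ^ (k + 1)) * (q⁻¹ * ρ ^ 3) := by ring
            _ ≤ 97 * (4 ^ k * ρ ^ (k + 1)) * (1 / 50) := by gcongr
            _ = ρ ^ (k + 1) * 4 ^ (k + 1) * (97 / 200) := by ring
        rw [Finset.sum_add_distrib] at e1
        have h13 : 0 < ρ ^ (k + 1) * (4 : ℝ) ^ (k + 1) := by positivity
        linarith

/-- for `t = q^2 ≥ 2500 r^(3/2)`; induction on `d`, strong induction on `k` -/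
theorem Nk_bound (r : ℕ) (hr : 1 ≤ r) (q : ℝ) (hq : 0 < q) (hq2 : 2500 * (r : ℝ) ^ ((3 : ℝ) / 2) ≤ q ^ 2)
    (d k M : ℕ) :
    ∑ m ∈ Finset.range M, nk r q d k m ≤ 4 ^ k * (r : ℝ) ^ ((k : ℝ) / 4) := by
  rw [Bound_rpow]
  exact Bound_main r hr q hq hq2 M d k

/-- triples as functions -/
def Bound_e (r : ℕ) : J r ≃ (Fin 3 → Fin r) where
  toFun j := ![j.1, j.2.1, j.2.2]
  invFun α := (α 0, α 1, α 2)
  left_inv j := rfl
  right_inv α := by
    funext i
    fin_cases i <;> rfl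

/-- reversed triples as functions -/
def Bound_e' (r : ℕ) : J r ≃ (Fin 3 → Fin r) where
  toFun j := ![j.2.2, j.2.1, j.1]
  invFun α := (α 2, α 1, α 0)
  left_inv j := rfl
  right_inv α := by
    funext i
    fin_cases i <;> rfl

theorem Bound_sum (r : ℕ) (F : List (Fin r) → ℝ) :
    ∑ j : J r, F [j.1, j.2.1, j.2.2] = ∑ α : Fin 3 → Fin r, F (List.ofFn α) := by
  rw [← (Bound_e r).sum_comp]
  rfl

theorem Bound_sum' (r : ℕ) (F : List (Fin r) → ℝ) :
    ∑ j : J r, F [j.2.2, j.2.1, j.1] = ∑ α : Fin 3 → Fin r, F (List.ofFn α) := by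
  rw [← (Bound_e' r).sum_comp]
  rfl

theorem Bound_sq (f : ℕ → ℝ) (hf : ∀ n, 0 ≤ f n) (M : ℕ) :
    ∑ m ∈ Finset.range M, f m ^ 2 ≤ (∑ m ∈ Finset.range M, f m) ^ 2 := by
  induction M with
  | zero => simp
  | succ M ih =>
    rw [Finset.sum_range_succ, Finset.sum_range_succ]
    have h1 : 0 ≤ ∑ m ∈ Finset.range M, f m := Finset.sum_nonneg fun m _ => hf m
    nlinarith [mul_nonneg h1 (hf M)]

/-- `Σ_j |Ψ_j|² ≤ 16384 r^(3/2)`, `Ψ_j = Ψ_abc + Ψ_cba` -/
theorem Psi_bound (r : ℕ) (hr : 1 ≤ r) (q : ℝ) (hq : 0 < q)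
    (hq2 : 2500 * (r : ℝ) ^ ((3 : ℝ) / 2) ≤ q ^ 2) (d M : ℕ) :
    ∑ j : J r, ∑ m ∈ Finset.range M, ∑ u : Fin m → K r,
      (Psi q d [j.1, j.2.1, j.2.2] (List.ofFn u) + Psi q d [j.2.2, j.2.1, j.1] (List.ofFn u)) ^ 2
      ≤ 16384 * (r : ℝ) ^ ((3 : ℝ) / 2) := by
  have hb := Bound_main r hr q hq hq2 M d 3
  have hn : ∀ m, nk r q d 3 m ^ 2 =
      ∑ α : Fin 3 → Fin r, ∑ u : Fin m → K r, (Psi q d (List.ofFn α) (List.ofFn u)) ^ 2 := by
    intro m
    unfold nk
    rw [Real.sq_sqrt]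
    exact Finset.sum_nonneg fun _ _ => Finset.sum_nonneg fun _ _ => sq_nonneg _
  have h1 : ∑ m ∈ Finset.range M, nk r q d 3 m ^ 2 ≤ 4096 * (r : ℝ) ^ ((3 : ℝ) / 2) := by
    refine (Bound_sq _ (nk_nonneg r q d 3) M).trans ?_
    have h0 : 0 ≤ ∑ m ∈ Finset.range M, nk r q d 3 m := Finset.sum_nonneg fun m _ => nk_nonneg r q d 3 m
    refine (pow_le_pow_left₀ h0 hb 2).trans (le_of_eq ?_)
    rw [Bound_three]
    ring
  calc ∑ j : J r, ∑ m ∈ Finset.range M, ∑ u : Fin m → K r,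
      (Psi q d [j.1, j.2.1, j.2.2] (List.ofFn u) + Psi q d [j.2.2, j.2.1, j.1] (List.ofFn u)) ^ 2
      ≤ ∑ j : J r, ∑ m ∈ Finset.range M, ∑ u : Fin m → K r,
        (2 * Psi q d [j.1, j.2.1, j.2.2] (List.ofFn u) ^ 2
          + 2 * Psi q d [j.2.2, j.2.1, j.1] (List.ofFn u) ^ 2) := by
        refine Finset.sum_le_sum fun j _ => Finset.sum_le_sum fun m _ =>
          Finset.sum_le_sum fun u _ => ?_
        nlinarith [sq_nonneg (Psi q d [j.1, j.2.1, j.2.2] (List.ofFn u)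
          - Psi q d [j.2.2, j.2.1, j.1] (List.ofFn u))]
    _ = 2 * (∑ m ∈ Finset.range M, ∑ j : J r, ∑ u : Fin m → K r,
          Psi q d [j.1, j.2.1, j.2.2] (List.ofFn u) ^ 2)
        + 2 * (∑ m ∈ Finset.range M, ∑ j : J r, ∑ u : Fin m → K r,
          Psi q d [j.2.2, j.2.1, j.1] (List.ofFn u) ^ 2) := by
        rw [Finset.sum_comm]
        simp only [Finset.mul_sum, ← Finset.sum_add_distrib]
    _ = 4 * ∑ m ∈ Finset.range M, nk r q d 3 m ^ 2 := by
        have h2 : ∀ m, ∑ j : J r, ∑ u : Fin m → K r,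
            Psi q d [j.1, j.2.1, j.2.2] (List.ofFn u) ^ 2 = nk r q d 3 m ^ 2 := fun m => by
          rw [hn m, Bound_sum r fun l => ∑ u : Fin m → K r, Psi q d l (List.ofFn u) ^ 2]
        have h3 : ∀ m, ∑ j : J r, ∑ u : Fin m → K r,
            Psi q d [j.2.2, j.2.1, j.1] (List.ofFn u) ^ 2 = nk r q d 3 m ^ 2 := fun m => by
          rw [hn m, Bound_sum' r fun l => ∑ u : Fin m → K r, Psi q d l (List.ofFn u) ^ 2]
        simp only [h2, h3]
        ring
    _ ≤ 16384 * (r : ℝ) ^ ((3 : ℝ) / 2) := by linarith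

end P087
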