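import Vale.Agent.Lib.P087.Comb

/-! P087 W/Gen: sums over words of a fixed length, Minkowski inequality. -/

namespace P087

variable {ι : Type} [Fintype ι]

/-- iterated sum over the words of length `k` -/
noncomputable def LS : ℕ → (List ι → ℝ) → ℝ
  | 0, f => f []
  | k + 1, f => ∑ i, LS k (fun w => f (i :: w))

theorem sum_ofFn (k : ℕ) (f : List ι → ℝ) : ∑ u : Fin k → ι, f (List.ofFn u) = LS k f := by
  induction k generalizing f with
  | zero => simp [LS]
  | succ k ih =>
    rw [← (Fin.consEquiv (fun _ : Fin (k + 1) => ι)).sum_comp, Fintype.sum_prod_type]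
    unfold LS
    refine Finset.sum_congr rfl fun i _ => ?_
    rw [← ih]
    refine Finset.sum_congr rfl fun w _ => ?_
    congr 1
    change List.ofFn (Fin.cons i w : Fin (k + 1) → ι) = _
    rw [List.ofFn_cons]

theorem LS_add (a b : ℕ) (f : List ι → ℝ) :
    LS (a + b) f = LS a (fun u => LS b (fun v => f (u ++ v))) := by
  induction a generalizing f with
  | zero => simp [LS]
  | succ a ih =>
    rw [Nat.add_right_comm]
    unfold LS
    refine Finset.sum_congr rfl fun i _ => ?_
    rw [ih]
    rfl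

/-- splitting at a position -/
theorem LS_split (a b : ℕ) (f : List ι → ℝ) :
    LS (a + 1 + b) f = LS a (fun u => ∑ i, LS b (fun v => f (u ++ i :: v))) := by
  rw [add_assoc, LS_add]
  congr 1
  funext u
  rw [add_comm 1 b]
  rfl

theorem LS_congr {k : ℕ} {f g : List ι → ℝ} (h : ∀ w : List ι, w.length = k → f w = g w) :
    LS k f = LS k g := by
  induction k generalizing f g with
  | zero => exact h [] rfl
  | succ k ih =>
    unfold LS
    refine Finset.sum_congr rfl fun i _ => ih fun w hw => h _ (by simp [hw])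

theorem LS_mono {k : ℕ} {f g : List ι → ℝ} (h : ∀ w : List ι, w.length = k → f w ≤ g w) :
    LS k f ≤ LS k g := by
  induction k generalizing f g with
  | zero => exact h [] rfl
  | succ k ih =>
    unfold LS
    refine Finset.sum_le_sum fun i _ => ih fun w hw => h _ (by simp [hw])

theorem LS_nonneg {k : ℕ} {f : List ι → ℝ} (h : ∀ w : List ι, w.length = k → 0 ≤ f w) :
    0 ≤ LS k f := by
  induction k generalizing f with
  | zero => exact h [] rfl
  | succ k ih =>
    unfold LS
    exact Finset.sum_nonneg fun i _ => ih fun w hw => h _ (by simp [hw])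

theorem LS_sum {k : ℕ} {σ : Type} (s : Finset σ) (f : σ → List ι → ℝ) :
    LS k (fun w => ∑ x ∈ s, f x w) = ∑ x ∈ s, LS k (f x) := by
  induction k generalizing f with
  | zero => rfl
  | succ k ih =>
    unfold LS
    rw [Finset.sum_comm]
    exact Finset.sum_congr rfl fun i _ => ih _

theorem LS_mul_left {k : ℕ} (c : ℝ) (f : List ι → ℝ) :
    LS k (fun w => c * f w) = c * LS k f := by
  induction k generalizing f with
  | zero => rfl
  | succ k ih =>
    unfold LS
    rw [Finset.mul_sum]
    exact Finset.sum_congr rfl fun i _ => ih _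

theorem LS_mul_right {k : ℕ} (c : ℝ) (f : List ι → ℝ) :
    LS k (fun w => f w * c) = LS k f * c := by
  simp_rw [mul_comm _ c]
  exact LS_mul_left c f

theorem LS_add_fun {k : ℕ} (f g : List ι → ℝ) :
    LS k (fun w => f w + g w) = LS k f + LS k g := by
  induction k generalizing f g with
  | zero => rfl
  | succ k ih =>
    unfold LS
    rw [← Finset.sum_add_distrib]
    exact Finset.sum_congr rfl fun i _ => ih _ _

/-- `ℓ²` norm of a function on pairs of words of lengths `k`, `m` -/
noncomputable def n2 {κ : Type} [Fintype κ] (k m : ℕ) (F : List ι → List κ → ℝ) : ℝ :=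
  Real.sqrt (∑ α : Fin k → ι, ∑ u : Fin m → κ, (F (List.ofFn α) (List.ofFn u)) ^ 2)

variable {κ : Type} [Fintype κ]

theorem n2_eq (k m : ℕ) (F : List ι → List κ → ℝ) :
    n2 k m F = Real.sqrt (LS k (fun α => LS m (fun u => F α u ^ 2))) := by
  unfold n2
  rw [← sum_ofFn k]
  congr 1
  refine Finset.sum_congr rfl fun α _ => ?_
  rw [← sum_ofFn m]

theorem n2_nonneg (k m : ℕ) (F : List ι → List κ → ℝ) : 0 ≤ n2 k m F := Real.sqrt_nonneg _

private theorem n2_norm (k m : ℕ) (F : List ι → List κ → ℝ) :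
    n2 k m F = ‖(WithLp.toLp 2 (fun p : (Fin k → ι) × (Fin m → κ) =>
      F (List.ofFn p.1) (List.ofFn p.2)) : EuclideanSpace ℝ ((Fin k → ι) × (Fin m → κ)))‖ := by
  rw [EuclideanSpace.norm_eq]
  unfold n2
  rw [Fintype.sum_prod_type]
  simp [sq_abs]

theorem n2_add_le (k m : ℕ) (F G : List ι → List κ → ℝ) :
    n2 k m (fun α u => F α u + G α u) ≤ n2 k m F + n2 k m G := by
  rw [n2_norm, n2_norm, n2_norm]
  have h := norm_add_le
    (WithLp.toLp 2 (fun p : (Fin k → ι) × (Fin m → κ) =>
      F (List.ofFn p.1) (List.ofFn p.2)) : EuclideanSpace ℝ ((Fin k → ι) × (Fin m → κ)))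
    (WithLp.toLp 2 (fun p : (Fin k → ι) × (Fin m → κ) =>
      G (List.ofFn p.1) (List.ofFn p.2)) : EuclideanSpace ℝ ((Fin k → ι) × (Fin m → κ)))
  rw [← WithLp.toLp_add] at h
  exact h

theorem n2_sum_le {σ : Type} (s : Finset σ) (k m : ℕ) (F : σ → List ι → List κ → ℝ) :
    n2 k m (fun α u => ∑ x ∈ s, F x α u) ≤ ∑ x ∈ s, n2 k m (F x) := by
  classical
  induction s using Finset.induction_on with
  | empty => simp [n2]
  | insert x s hx ih =>
    simp_rw [Finset.sum_insert hx]
    exact (n2_add_le k m _ _).trans (add_le_add le_rfl ih)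

theorem n2_mul (k m : ℕ) {c : ℝ} (hc : 0 ≤ c) (F : List ι → List κ → ℝ) :
    n2 k m (fun α u => c * F α u) = c * n2 k m F := by
  unfold n2
  simp_rw [mul_pow, ← Finset.mul_sum]
  rw [Real.sqrt_mul (sq_nonneg c), Real.sqrt_sq hc]

theorem n2_congr {k m : ℕ} {F G : List ι → List κ → ℝ}
    (h : ∀ α u, α.length = k → u.length = m → F α u = G α u) : n2 k m F = n2 k m G := by
  unfold n2
  congr 1
  refine Finset.sum_congr rfl fun α _ => Finset.sum_congr rfl fun u _ => ?_
  rw [h _ _ (List.length_ofFn) (List.length_ofFn)]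

end P087
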