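import Vale.Agent.Lib.P087.W.NormB
import Vale.Agent.Lib.P087.W.Cf

/-! P087 part W: norm bounds (section 3, NORMS). -/

namespace P087

/-- one kind of terms of the recursion -/
noncomputable def kd {r : ℕ} {J : Type} [Fintype J] (code : Fin r → J → K r)
    (A : J → List (Fin r) → List (K r) → ℝ) (B : J → List (K r) → ℝ) (l : ℕ) :
    List (Fin r) → List (K r) → ℝ
  | [], _ => 0
  | p :: β, u => ∑ j, if u[l]? = some (code p j) then A j β (u.take l) * B j (u.drop (l + 1)) else 0

theorem kd_split {r : ℕ} {J : Type} [Fintype J] (code : Fin r → J → K r)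
    (A : J → List (Fin r) → List (K r) → ℝ) (B : J → List (K r) → ℝ) (l : ℕ) (p : Fin r)
    (β : List (Fin r)) (u : List (K r)) (i : K r) (v : List (K r)) (hu : u.length = l) :
    kd code A B l (p :: β) (u ++ i :: v) = ∑ j, if i = code p j then A j β u * B j v else 0 := by
  subst hu
  unfold kd
  refine Finset.sum_congr rfl fun j _ => ?_
  have h1 : (u ++ i :: v)[u.length]? = some i := by simp
  have h2 : (u ++ i :: v).take u.length = u := by simp
  have h3 : (u ++ i :: v).drop (u.length + 1) = v := by simp [List.drop_append]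
  rw [h1, h2, h3]
  simp only [Option.some.injEq]

theorem sum_code {J κ : Type} [Fintype J] [DecidableEq J] [DecidableEq κ] (code : J → κ)
    (hc : Function.Injective code) (j : J) (x : J → ℝ) :
    (∑ j', if code j = code j' then x j' else 0) = x j := by
  rw [Finset.sum_eq_single j]
  · rw [if_pos rfl]
  · intro j' _ hj'
    exact if_neg fun h => hj' (hc h).symm
  · intro h
    exact absurd (Finset.mem_univ j) h

theorem sum_code_zero {J κ : Type} [Fintype J] [DecidableEq κ] (code : J → κ) (i : κ)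
    (h : ∀ j, i ≠ code j) (x : J → ℝ) : (∑ j', if i = code j' then x j' else 0) = 0 :=
  Finset.sum_eq_zero fun j' _ => if_neg (h j')

def cd1 {r : ℕ} (p : Fin r) (j : Fin r × Fin r) : K r := Sum.inr (p, j.1, j.2)
def cd2 {r : ℕ} (p : Fin r) (j : Fin r × Fin r) : K r := Sum.inr (j.2, j.1, p)
def cd3 {r : ℕ} (p : Fin r) (j : Fin r × Fin r) : K r := Sum.inr (j.1, p, j.2)
def cd4 {r : ℕ} (p : Fin r) (j : Fin r × Fin r) : K r := Sum.inr (j.2, p, j.1)
def cd5 {r : ℕ} (p : Fin r) (j : Fin r × Fin r) : K r := Sum.inr (j.1, j.2, p)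
def cd6 {r : ℕ} (p : Fin r) (j : Fin r × Fin r) : K r := Sum.inr (p, j.2, j.1)
def cd7 {r : ℕ} (p : Fin r) (_ : Unit) : K r := Sum.inl p

theorem cd1_inj {r : ℕ} (p : Fin r) : Function.Injective (cd1 p) := by
  rintro ⟨a, b⟩ ⟨c, d⟩ h
  simp only [cd1, Sum.inr.injEq, Prod.mk.injEq] at h ⊢
  tauto

theorem cd2_inj {r : ℕ} (p : Fin r) : Function.Injective (cd2 p) := by
  rintro ⟨a, b⟩ ⟨c, d⟩ h
  simp only [cd2, Sum.inr.injEq, Prod.mk.injEq] at h ⊢
  tauto

theorem cd3_inj {r : ℕ} (p : Fin r) : Function.Injective (cd3 p) := by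
  rintro ⟨a, b⟩ ⟨c, d⟩ h
  simp only [cd3, Sum.inr.injEq, Prod.mk.injEq] at h ⊢
  tauto

theorem cd4_inj {r : ℕ} (p : Fin r) : Function.Injective (cd4 p) := by
  rintro ⟨a, b⟩ ⟨c, d⟩ h
  simp only [cd4, Sum.inr.injEq, Prod.mk.injEq] at h ⊢
  tauto

theorem cd5_inj {r : ℕ} (p : Fin r) : Function.Injective (cd5 p) := by
  rintro ⟨a, b⟩ ⟨c, d⟩ h
  simp only [cd5, Sum.inr.injEq, Prod.mk.injEq] at h ⊢
  tauto

theorem cd6_inj {r : ℕ} (p : Fin r) : Function.Injective (cd6 p) := by
  rintro ⟨a, b⟩ ⟨c, d⟩ h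
  simp only [cd6, Sum.inr.injEq, Prod.mk.injEq] at h ⊢
  tauto

/-- the seven kinds -/
noncomputable def kinds {r : ℕ} (P : List (Fin r) → List (K r) → ℝ) (l : ℕ)
    (α : List (Fin r)) (u : List (K r)) : ℝ :=
  (kd cd1 (fun _ => P) (fun j => P [j.1, j.2]) l α u +
    kd cd2 (fun _ => P) (fun j => P [j.1, j.2]) l α u) +
  (kd cd3 (fun j β => P (j.1 :: β)) (fun j => P [j.2]) l α u +
    kd cd4 (fun j β => P (j.1 :: β)) (fun j => P [j.2]) l α u) +
  (kd cd5 (fun j β => P (j.1 :: j.2 :: β)) (fun _ => P []) l α u +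
    kd cd6 (fun j β => P (j.1 :: j.2 :: β)) (fun _ => P []) l α u) +
  kd cd7 (fun _ => P) (fun _ => P []) l α u

theorem Dp_sum {r : ℕ} (P : List (Fin r) → List (K r) → ℝ) (p : Fin r) (β : List (Fin r))
    (u : List (K r)) (i : K r) (v : List (K r)) :
    ((Dp p i).map fun uv => P (uv.1 ++ β) u * P uv.2 v).sum =
      kinds P u.length (p :: β) (u ++ i :: v) := by
  unfold kinds
  rw [kd_split _ _ _ _ _ _ _ _ _ rfl, kd_split _ _ _ _ _ _ _ _ _ rfl,
    kd_split _ _ _ _ _ _ _ _ _ rfl, kd_split _ _ _ _ _ _ _ _ _ rfl,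
    kd_split _ _ _ _ _ _ _ _ _ rfl, kd_split _ _ _ _ _ _ _ _ _ rfl,
    kd_split _ _ _ _ _ _ _ _ _ rfl]
  rcases i with a | ⟨a, b, c⟩
  · rw [sum_code_zero (cd1 p) _ (fun j => by simp [cd1]),
      sum_code_zero (cd2 p) _ (fun j => by simp [cd2]),
      sum_code_zero (cd3 p) _ (fun j => by simp [cd3]),
      sum_code_zero (cd4 p) _ (fun j => by simp [cd4]),
      sum_code_zero (cd5 p) _ (fun j => by simp [cd5]),
      sum_code_zero (cd6 p) _ (fun j => by simp [cd6])]
    unfold Dp cd7
    by_cases h : p = a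
    · subst h
      simp
    · have h' : a ≠ p := fun h' => h h'.symm
      simp [h, h']
  · have e1 : (∑ j : Fin r × Fin r, if (Sum.inr (a, b, c) : K r) = cd1 p j then
        P β u * P [j.1, j.2] v else 0) = if p = a then P β u * P [b, c] v else 0 := by
      by_cases h : p = a
      · subst h
        rw [if_pos rfl]
        exact sum_code (cd1 p) (cd1_inj p) (b, c) fun j => P β u * P [j.1, j.2] v
      · rw [if_neg h]
        exact sum_code_zero _ _ (fun j hj => h (by
          simp only [cd1, Sum.inr.injEq, Prod.mk.injEq] at hj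
          exact hj.1.symm)) _
    have e2 : (∑ j : Fin r × Fin r, if (Sum.inr (a, b, c) : K r) = cd2 p j then
        P β u * P [j.1, j.2] v else 0) = if p = c then P β u * P [b, a] v else 0 := by
      by_cases h : p = c
      · subst h
        rw [if_pos rfl]
        exact sum_code (cd2 p) (cd2_inj p) (b, a) fun j => P β u * P [j.1, j.2] v
      · rw [if_neg h]
        exact sum_code_zero _ _ (fun j hj => h (by
          simp only [cd2, Sum.inr.injEq, Prod.mk.injEq] at hj
          exact hj.2.2.symm)) _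
    have e3 : (∑ j : Fin r × Fin r, if (Sum.inr (a, b, c) : K r) = cd3 p j then
        P (j.1 :: β) u * P [j.2] v else 0) = if p = b then P (a :: β) u * P [c] v else 0 := by
      by_cases h : p = b
      · subst h
        rw [if_pos rfl]
        exact sum_code (cd3 p) (cd3_inj p) (a, c) fun j => P (j.1 :: β) u * P [j.2] v
      · rw [if_neg h]
        exact sum_code_zero _ _ (fun j hj => h (by
          simp only [cd3, Sum.inr.injEq, Prod.mk.injEq] at hj
          exact hj.2.1.symm)) _
    have e4 : (∑ j : Fin r × Fin r, if (Sum.inr (a, b, c) : K r) = cd4 p j then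
        P (j.1 :: β) u * P [j.2] v else 0) = if p = b then P (c :: β) u * P [a] v else 0 := by
      by_cases h : p = b
      · subst h
        rw [if_pos rfl]
        exact sum_code (cd4 p) (cd4_inj p) (c, a) fun j => P (j.1 :: β) u * P [j.2] v
      · rw [if_neg h]
        exact sum_code_zero _ _ (fun j hj => h (by
          simp only [cd4, Sum.inr.injEq, Prod.mk.injEq] at hj
          exact hj.2.1.symm)) _
    have e5 : (∑ j : Fin r × Fin r, if (Sum.inr (a, b, c) : K r) = cd5 p j then
        P (j.1 :: j.2 :: β) u * P [] v else 0) =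
        if p = c then P (a :: b :: β) u * P [] v else 0 := by
      by_cases h : p = c
      · subst h
        rw [if_pos rfl]
        exact sum_code (cd5 p) (cd5_inj p) (a, b) fun j => P (j.1 :: j.2 :: β) u * P [] v
      · rw [if_neg h]
        exact sum_code_zero _ _ (fun j hj => h (by
          simp only [cd5, Sum.inr.injEq, Prod.mk.injEq] at hj
          exact hj.2.2.symm)) _
    have e6 : (∑ j : Fin r × Fin r, if (Sum.inr (a, b, c) : K r) = cd6 p j then
        P (j.1 :: j.2 :: β) u * P [] v else 0) =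
        if p = a then P (c :: b :: β) u * P [] v else 0 := by
      by_cases h : p = a
      · subst h
        rw [if_pos rfl]
        exact sum_code (cd6 p) (cd6_inj p) (c, b) fun j => P (j.1 :: j.2 :: β) u * P [] v
      · rw [if_neg h]
        exact sum_code_zero _ _ (fun j hj => h (by
          simp only [cd6, Sum.inr.injEq, Prod.mk.injEq] at hj
          exact hj.1.symm)) _
    have e7 : (∑ j : Unit, if (Sum.inr (a, b, c) : K r) = cd7 p j then P β u * P [] v else 0) =
        0 := sum_code_zero _ _ (fun j => by simp [cd7]) _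
    rw [e1, e2, e3, e4, e5, e6, e7]
    unfold Dp
    simp only [List.map_append, List.sum_append, apply_ite (List.map _), apply_ite List.sum,
      List.map_cons, List.map_nil, List.sum_cons, List.sum_nil, List.nil_append, add_zero,
      List.cons_append]
    ring

/-- the moment part of the recursion -/
noncomputable def mp {r : ℕ} (Q : List (Fin r) → List (K r) → ℝ) (l : ℕ) :
    List (Fin r) → List (K r) → ℝ
  | [], _ => 0
  | p :: β, u => if β[l]? = some p then mom (β.take l) * Q (β.drop (l + 1)) u else 0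

theorem mp_cons {r : ℕ} (Q : List (Fin r) → List (K r) → ℝ) (l : ℕ) (p : Fin r)
    (β : List (Fin r)) (u : List (K r)) : mp Q l (p :: β) u =
      if β[l]? = some p then mom (β.take l) * Q (β.drop (l + 1)) u else 0 := rfl

theorem ak_sq (r k : ℕ) : (ak r k) ^ 2 = LS k (fun α : List (Fin r) => mom α ^ 2) := by
  unfold ak
  rw [Real.sq_sqrt (Finset.sum_nonneg fun _ _ => sq_nonneg _)]
  exact sum_ofFn k (fun α : List (Fin r) => mom α ^ 2)

theorem mp_norm {r : ℕ} (Q : List (Fin r) → List (K r) → ℝ) (l b m : ℕ) :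
    n2 (l + 1 + b + 1) m (mp Q l) = Real.sqrt r * ak r l * n2 b m Q := by
  have h1 : (n2 (l + 1 + b + 1) m (mp Q l)) ^ 2 = r * ((ak r l) ^ 2 * (n2 b m Q) ^ 2) := by
    rw [n2_sq, ak_sq, n2_sq]
    change ∑ p : Fin r, LS (l + 1 + b) (fun β => LS m (fun u => mp Q l (p :: β) u ^ 2)) = _
    have h2 : ∀ p : Fin r, LS (l + 1 + b) (fun β => LS m (fun u => mp Q l (p :: β) u ^ 2)) =
        LS l (fun α : List (Fin r) => mom α ^ 2) * LS b (fun α => LS m (fun u => Q α u ^ 2)) := by
      intro p
      rw [LS_split, ← LS_mul_right]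
      refine LS_congr fun b1 hb1 => ?_
      rw [Finset.sum_eq_single p]
      · rw [← LS_mul_left]
        refine LS_congr fun b2 _ => ?_
        rw [← LS_mul_left]
        refine LS_congr fun u _ => ?_
        have h3 : (b1 ++ p :: b2)[l]? = some p := by subst hb1; simp
        have h4 : (b1 ++ p :: b2).take l = b1 := by subst hb1; simp
        have h5 : (b1 ++ p :: b2).drop (l + 1) = b2 := by subst hb1; simp [List.drop_append]
        rw [mp_cons, if_pos h3, h4, h5, mul_pow]
      · intro i _ hi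
        have h3 : ∀ b2 : List (Fin r), (b1 ++ i :: b2)[l]? = some i := by
          intro b2
          subst hb1
          simp
        have h4 : ∀ b2 : List (Fin r), ∀ u : List (K r), mp Q l (p :: (b1 ++ i :: b2)) u ^ 2 = 0 := by
          intro b2 u
          have h5 : ¬ ((b1 ++ i :: b2)[l]? = some p) := by
            rw [h3]
            simpa using hi
          rw [mp_cons, if_neg h5]
          norm_num
        simp_rw [h4, LS_const_zero]
      · intro h
        exact absurd (Finset.mem_univ p) h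
    simp_rw [h2]
    rw [Finset.sum_const, Finset.card_univ, Fintype.card_fin, nsmul_eq_mul]
  have h2 : 0 ≤ ak r l := Real.sqrt_nonneg _
  rw [n2_le_of_sq h2 (n2_nonneg _ _ _) h1]
  ring

theorem Psi_decomp {r : ℕ} (q : ℝ) (d k m : ℕ) (α : List (Fin r)) (u : List (K r))
    (hα : α.length = k + 1) (hu : u.length = m) :
    Psi q (d + 1) α u = (∑ l ∈ Finset.range k, mp (Psi q (d + 1)) l α u) +
      q⁻¹ * ∑ l ∈ Finset.range m, kinds (Psi q d) l α u := by
  obtain _ | ⟨p, β⟩ := α
  · simp at hα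
  have hβ : β.length = k := by simpa using hα
  subst hβ
  subst hu
  rw [Psi, ← Fin.sum_univ_eq_sum_range, ← Fin.sum_univ_eq_sum_range]
  congr 1
  · refine Finset.sum_congr rfl fun l _ => ?_
    have h1 : (β[(l : ℕ)]? = some p) ↔ β[l] = p := by
      rw [List.getElem?_eq_getElem l.2, Option.some.injEq]
      rfl
    rw [mp_cons]
    simp only [h1]
  · congr 1
    refine Finset.sum_congr rfl fun l _ => ?_
    have h1 : u = u.take l ++ u[l] :: u.drop (l + 1) := by
      rw [Fin.getElem_fin, List.getElem_cons_drop, List.take_append_drop]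
    have h2 : (u.take l).length = (l : ℕ) := by
      rw [List.length_take]
      exact Nat.min_eq_left l.2.le
    rw [Dp_sum (Psi q d) p β (u.take l) u[l] (u.drop (l + 1)), h2, ← h1]

theorem kinds_norm {r : ℕ} (P : List (Fin r) → List (K r) → ℝ) (k a b : ℕ) :
    n2 (k + 1) (a + 1 + b) (kinds P a) ≤ Real.sqrt r * (2 * n2 k a P * n2 2 b P +
      2 * n2 (k + 1) a P * n2 1 b P + 2 * n2 (k + 2) a P * n2 0 b P + n2 k a P * n2 0 b P) := by
  have e1 := case_02 cd1 cd1_inj P (kd cd1 (fun _ => P) (fun j => P [j.1, j.2]) a) k a b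
    (fun p β u i v _ hu _ => kd_split _ _ _ _ _ _ _ _ _ hu)
  have e2 := case_02 cd2 cd2_inj P (kd cd2 (fun _ => P) (fun j => P [j.1, j.2]) a) k a b
    (fun p β u i v _ hu _ => kd_split _ _ _ _ _ _ _ _ _ hu)
  have e3 := case_11 cd3 cd3_inj P (kd cd3 (fun j β => P (j.1 :: β)) (fun j => P [j.2]) a) k a b
    (fun p β u i v _ hu _ => kd_split _ _ _ _ _ _ _ _ _ hu)
  have e4 := case_11 cd4 cd4_inj P (kd cd4 (fun j β => P (j.1 :: β)) (fun j => P [j.2]) a) k a b
    (fun p β u i v _ hu _ => kd_split _ _ _ _ _ _ _ _ _ hu)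
  have e5 := case_20 cd5 cd5_inj P (kd cd5 (fun j β => P (j.1 :: j.2 :: β)) (fun _ => P []) a)
    k a b (fun p β u i v _ hu _ => kd_split _ _ _ _ _ _ _ _ _ hu)
  have e6 := case_20 cd6 cd6_inj P (kd cd6 (fun j β => P (j.1 :: j.2 :: β)) (fun _ => P []) a)
    k a b (fun p β u i v _ hu _ => kd_split _ _ _ _ _ _ _ _ _ hu)
  have e7 := case_00 P (kd cd7 (fun _ => P) (fun _ => P []) a) k a b
    (fun p β u i v _ hu _ => by
      rw [kd_split _ _ _ _ _ _ _ _ _ hu]
      exact Fintype.sum_unique _)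
  unfold kinds
  refine (n2_add_le _ _ _ _).trans ?_
  refine (add_le_add (n2_add_le _ _ _ _) le_rfl).trans ?_
  refine (add_le_add (add_le_add (n2_add_le _ _ _ _) (n2_add_le _ _ _ _)) le_rfl).trans ?_
  refine (add_le_add (add_le_add (add_le_add (n2_add_le _ _ _ _) (n2_add_le _ _ _ _)) le_rfl)
    le_rfl).trans ?_
  have e1' : n2 (k + 1) (a + 1 + b)
    (fun α u => kd cd1 (fun _ => P) (fun j => P [j.1, j.2]) a α u) = _ := e1
  have e2' : n2 (k + 1) (a + 1 + b)
    (fun α u => kd cd2 (fun _ => P) (fun j => P [j.1, j.2]) a α u) = _ := e2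
  have e3' : n2 (k + 1) (a + 1 + b)
    (fun α u => kd cd3 (fun j β => P (j.1 :: β)) (fun j => P [j.2]) a α u) = _ := e3
  have e4' : n2 (k + 1) (a + 1 + b)
    (fun α u => kd cd4 (fun j β => P (j.1 :: β)) (fun j => P [j.2]) a α u) = _ := e4
  have e5' : n2 (k + 1) (a + 1 + b)
    (fun α u => kd cd5 (fun j β => P (j.1 :: j.2 :: β)) (fun _ => P []) a α u) = _ := e5
  have e6' : n2 (k + 1) (a + 1 + b)
    (fun α u => kd cd6 (fun j β => P (j.1 :: j.2 :: β)) (fun _ => P []) a α u) = _ := e6
  have e7' : n2 (k + 1) (a + 1 + b)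
    (fun α u => kd cd7 (fun _ => P) (fun _ => P []) a α u) = _ := e7
  rw [e1', e2', e3', e4', e5', e6', e7']
  apply le_of_eq
  ring

/-- one step of the recursion in `ℓ²` norm (Minkowski inequality for finite sums; write `α = p :: β`, `u` of length `m`;
for each position and each of the seven kinds of pairs in `Dp` the map `(u', v') ↦ u[l]` is injective for fixed `p`) -/
theorem nk_step (r : ℕ) (q : ℝ) (hq : 0 < q) (d k m : ℕ) :
    nk r q (d + 1) (k + 1) m ≤
      (∑ i ∈ Finset.range k, Real.sqrt r * ak r i * nk r q (d + 1) (k - 1 - i) m)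
      + q⁻¹ * Real.sqrt r * ∑ l ∈ Finset.range m,
        (2 * nk r q d k l * nk r q d 2 (m - 1 - l) + 2 * nk r q d (k + 1) l * nk r q d 1 (m - 1 - l)
          + 2 * nk r q d (k + 2) l * nk r q d 0 (m - 1 - l) + nk r q d k l * nk r q d 0 (m - 1 - l)) := by
  have hq' : 0 ≤ q⁻¹ := (inv_pos.2 hq).le
  have h0 : nk r q (d + 1) (k + 1) m = n2 (k + 1) m (fun α u =>
      (∑ l ∈ Finset.range k, mp (Psi q (d + 1)) l α u) +
      q⁻¹ * ∑ l ∈ Finset.range m, kinds (Psi q d) l α u) :=
    n2_congr fun α u hα hu => Psi_decomp q d k m α u hα hu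
  rw [h0]
  refine (n2_add_le _ _ _ _).trans (add_le_add ?_ ?_)
  · refine (n2_sum_le _ _ _ _).trans (Finset.sum_le_sum fun l hl => ?_)
    have hl' : l < k := Finset.mem_range.1 hl
    have h1 : k + 1 = l + 1 + (k - 1 - l) + 1 := by omega
    rw [h1]
    exact (mp_norm (Psi q (d + 1)) l (k - 1 - l) m).le
  · rw [n2_mul _ _ hq', mul_assoc]
    refine mul_le_mul_of_nonneg_left ?_ hq'
    rw [Finset.mul_sum]
    refine (n2_sum_le _ _ _ _).trans (Finset.sum_le_sum fun l hl => ?_)
    have hl' : l < m := Finset.mem_range.1 hl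
    have h1 : m = l + 1 + (m - 1 - l) := by omega
    have h2 := kinds_norm (Psi (r := r) q d) k l (m - 1 - l)
    rw [← h1] at h2
    exact h2

end P087
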