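import Vale.Agent.Lib.P087.W.Gen

/-! P087 W/NormB: the case lemma for the `ℓ²` norms of the recursion. -/

namespace P087

theorem LS_const_zero {ι : Type} [Fintype ι] (k : ℕ) : LS k (fun _ : List ι => (0 : ℝ)) = 0 := by
  induction k with
  | zero => rfl
  | succ k ih =>
    unfold LS
    exact Finset.sum_eq_zero fun i _ => ih

theorem n2_sq {ι κ : Type} [Fintype ι] [Fintype κ] (k m : ℕ) (F : List ι → List κ → ℝ) :
    (n2 k m F) ^ 2 = LS k (fun α => LS m (fun u => F α u ^ 2)) := by
  rw [n2_eq, Real.sq_sqrt]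
  exact LS_nonneg fun α _ => LS_nonneg fun u _ => sq_nonneg _

theorem sum_ite_sq {J κ : Type} [Fintype J] [DecidableEq J] [DecidableEq κ] (code : J → κ)
    (hc : Function.Injective code) (i : κ) (x : J → ℝ) :
    (∑ j, if i = code j then x j else 0) ^ 2 = ∑ j, if i = code j then x j ^ 2 else 0 := by
  by_cases h : ∃ j, i = code j
  · obtain ⟨j, rfl⟩ := h
    have h1 : ∀ y : J → ℝ, (∑ j', if code j = code j' then y j' else 0) = y j := by
      intro y
      rw [Finset.sum_eq_single j]
      · rw [if_pos rfl]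
      · intro j' _ hj'
        exact if_neg fun h => hj' (hc h).symm
      · intro h
        exact absurd (Finset.mem_univ j) h
    rw [h1, h1]
  · have h1 : ∀ y : J → ℝ, (∑ j', if i = code j' then y j' else 0) = 0 := by
      intro y
      exact Finset.sum_eq_zero fun j' _ => if_neg fun h' => h ⟨j', h'⟩
    rw [h1, h1]
    norm_num

/-- CASE LEMMA -/
theorem case_sq {r : ℕ} {J : Type} [Fintype J] [DecidableEq J] (code : Fin r → J → K r)
    (hc : ∀ p, Function.Injective (code p)) (A : J → List (Fin r) → List (K r) → ℝ)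
    (B : J → List (K r) → ℝ) (H : List (Fin r) → List (K r) → ℝ) (k a b : ℕ)
    (hH : ∀ p β u i v, β.length = k → u.length = a → v.length = b →
      H (p :: β) (u ++ i :: v) = ∑ j, if i = code p j then A j β u * B j v else 0) :
    (n2 (k + 1) (a + 1 + b) H) ^ 2 = r * ∑ j, (n2 k a (A j)) ^ 2 * LS b (fun v => B j v ^ 2) := by
  have h1 : ∀ p : Fin r, LS k (fun β => LS (a + 1 + b) (fun u => H (p :: β) u ^ 2)) =
      ∑ j, (n2 k a (A j)) ^ 2 * LS b (fun v => B j v ^ 2) := by
    intro p
    have h2 : LS k (fun β => LS (a + 1 + b) (fun u => H (p :: β) u ^ 2)) =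
        LS k (fun β => LS a (fun u => ∑ j, A j β u ^ 2 * LS b (fun v => B j v ^ 2))) := by
      refine LS_congr fun β hβ => ?_
      rw [LS_split]
      refine LS_congr fun u hu => ?_
      calc ∑ i, LS b (fun v => H (p :: β) (u ++ i :: v) ^ 2) =
            ∑ i, LS b (fun v => ∑ j, if i = code p j then (A j β u * B j v) ^ 2 else 0) := by
            refine Finset.sum_congr rfl fun i _ => LS_congr fun v hv => ?_
            rw [hH p β u i v hβ hu hv, sum_ite_sq (code p) (hc p)]
        _ = ∑ i, ∑ j, (if i = code p j then LS b (fun v => (A j β u * B j v) ^ 2) else 0) := by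
            refine Finset.sum_congr rfl fun i _ => ?_
            rw [LS_sum]
            refine Finset.sum_congr rfl fun j _ => ?_
            split_ifs
            · rfl
            · exact LS_const_zero b
        _ = ∑ j, LS b (fun v => (A j β u * B j v) ^ 2) := by
            rw [Finset.sum_comm]
            refine Finset.sum_congr rfl fun j _ => ?_
            rw [Finset.sum_ite_eq']
            simp
        _ = ∑ j, A j β u ^ 2 * LS b (fun v => B j v ^ 2) := by
            refine Finset.sum_congr rfl fun j _ => ?_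
            simp_rw [mul_pow]
            exact LS_mul_left _ _
    rw [h2]
    have h3 : ∀ β : List (Fin r), LS a (fun u => ∑ j, A j β u ^ 2 * LS b (fun v => B j v ^ 2)) =
        ∑ j, LS a (fun u => A j β u ^ 2) * LS b (fun v => B j v ^ 2) := by
      intro β
      rw [LS_sum]
      refine Finset.sum_congr rfl fun j _ => ?_
      exact LS_mul_right _ _
    simp_rw [h3]
    rw [LS_sum]
    refine Finset.sum_congr rfl fun j _ => ?_
    rw [LS_mul_right, n2_sq]
  rw [n2_sq]
  change ∑ p : Fin r, LS k (fun β => LS (a + 1 + b) (fun u => H (p :: β) u ^ 2)) = _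
  simp_rw [h1]
  rw [Finset.sum_const, Finset.card_univ, Fintype.card_fin, nsmul_eq_mul]

/-- from squares to norms -/
theorem n2_le_of_sq {r : ℕ} {k m : ℕ} {H : List (Fin r) → List (K r) → ℝ} {x y : ℝ} (hx : 0 ≤ x)
    (hy : 0 ≤ y) (h : (n2 k m H) ^ 2 = r * (x ^ 2 * y ^ 2)) :
    n2 k m H = Real.sqrt r * (x * y) := by
  have h1 : (n2 k m H) ^ 2 = (Real.sqrt r * (x * y)) ^ 2 := by
    rw [h, mul_pow, Real.sq_sqrt (Nat.cast_nonneg r)]
    ring
  exact (pow_left_inj₀ (n2_nonneg _ _ _) (by positivity) two_ne_zero).1 h1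

/-- kinds with `|y| = 0`, `|z| = 2` -/
theorem case_02 {r : ℕ} (code : Fin r → Fin r × Fin r → K r)
    (hc : ∀ p, Function.Injective (code p)) (P : List (Fin r) → List (K r) → ℝ)
    (H : List (Fin r) → List (K r) → ℝ) (k a b : ℕ)
    (hH : ∀ p β u i v, β.length = k → u.length = a → v.length = b →
      H (p :: β) (u ++ i :: v) =
        ∑ j : Fin r × Fin r, if i = code p j then P β u * P [j.1, j.2] v else 0) :
    n2 (k + 1) (a + 1 + b) H = Real.sqrt r * (n2 k a P * n2 2 b P) := by
  refine n2_le_of_sq (n2_nonneg _ _ _) (n2_nonneg _ _ _) ?_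
  rw [case_sq code hc (fun _ => P) (fun j => P [j.1, j.2]) H k a b hH, ← Finset.mul_sum,
    n2_sq 2 b, Fintype.sum_prod_type]
  rfl

/-- kinds with `|y| = 1`, `|z| = 1` -/
theorem case_11 {r : ℕ} (code : Fin r → Fin r × Fin r → K r)
    (hc : ∀ p, Function.Injective (code p)) (P : List (Fin r) → List (K r) → ℝ)
    (H : List (Fin r) → List (K r) → ℝ) (k a b : ℕ)
    (hH : ∀ p β u i v, β.length = k → u.length = a → v.length = b →
      H (p :: β) (u ++ i :: v) =
        ∑ j : Fin r × Fin r, if i = code p j then P (j.1 :: β) u * P [j.2] v else 0) :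
    n2 (k + 1) (a + 1 + b) H = Real.sqrt r * (n2 (k + 1) a P * n2 1 b P) := by
  refine n2_le_of_sq (n2_nonneg _ _ _) (n2_nonneg _ _ _) ?_
  rw [case_sq code hc (fun j β => P (j.1 :: β)) (fun j => P [j.2]) H k a b hH,
    n2_sq 1 b, n2_sq (k + 1) a, Fintype.sum_prod_type]
  congr 1
  change _ = (∑ i, LS k (fun w => LS a (fun u => P (i :: w) u ^ 2))) *
    ∑ c, LS b (fun v => P [c] v ^ 2)
  rw [Finset.sum_mul_sum]
  refine Finset.sum_congr rfl fun i _ => Finset.sum_congr rfl fun c _ => ?_
  rw [n2_sq]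

/-- kinds with `|y| = 2`, `|z| = 0` -/
theorem case_20 {r : ℕ} (code : Fin r → Fin r × Fin r → K r)
    (hc : ∀ p, Function.Injective (code p)) (P : List (Fin r) → List (K r) → ℝ)
    (H : List (Fin r) → List (K r) → ℝ) (k a b : ℕ)
    (hH : ∀ p β u i v, β.length = k → u.length = a → v.length = b →
      H (p :: β) (u ++ i :: v) =
        ∑ j : Fin r × Fin r, if i = code p j then P (j.1 :: j.2 :: β) u * P [] v else 0) :
    n2 (k + 1) (a + 1 + b) H = Real.sqrt r * (n2 (k + 2) a P * n2 0 b P) := by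
  refine n2_le_of_sq (n2_nonneg _ _ _) (n2_nonneg _ _ _) ?_
  rw [case_sq code hc (fun j β => P (j.1 :: j.2 :: β)) (fun _ => P []) H k a b hH,
    n2_sq 0 b, n2_sq (k + 2) a, ← Finset.sum_mul, Fintype.sum_prod_type]
  congr 1
  change _ = (∑ i, ∑ c, LS k (fun w => LS a (fun u => P (i :: c :: w) u ^ 2))) *
    LS b (fun v => P [] v ^ 2)
  congr 1
  refine Finset.sum_congr rfl fun i _ => Finset.sum_congr rfl fun c _ => ?_
  rw [n2_sq]

/-- the kind with `|y| = 0`, `|z| = 0` -/
theorem case_00 {r : ℕ} (P : List (Fin r) → List (K r) → ℝ)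
    (H : List (Fin r) → List (K r) → ℝ) (k a b : ℕ)
    (hH : ∀ p β u i v, β.length = k → u.length = a → v.length = b →
      H (p :: β) (u ++ i :: v) = if i = Sum.inl p then P β u * P [] v else 0) :
    n2 (k + 1) (a + 1 + b) H = Real.sqrt r * (n2 k a P * n2 0 b P) := by
  refine n2_le_of_sq (n2_nonneg _ _ _) (n2_nonneg _ _ _) ?_
  rw [case_sq (J := Unit) (fun p _ => Sum.inl p) (fun p x y _ => rfl) (fun _ => P)
    (fun _ => P []) H k a b (fun p β u i v h1 h2 h3 => by rw [hH p β u i v h1 h2 h3]; simp),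
    n2_sq 0 b]
  simp only [Finset.univ_unique, Finset.sum_singleton]
  rfl

end P087
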